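import Vale.Agent.P024.H358.Red2
import Mathlib.NumberTheory.NumberField.InfinitePlace.TotallyRealComplex

/-!
The reduction of Uchida's conjecture to the maximal solvable extension of the rationals.
-/

namespace Vale.Agent.P024.H358.Red

open IntermediateField
open scoped Topology

theorem continuous_of_res {K L K' L' : Type*} [Field K] [Field L] [Algebra K L]
    [Algebra.IsIntegral K L] [Field K'] [CharZero K'] [Field L'] [Algebra K' L'] (ι : L' →+* L)
    (f : (L ≃ₐ[K] L) →* (L' ≃ₐ[K'] L')) (h : ∀ g x, ι (f g x) = g (ι x)) : Continuous f := by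
  refine continuous_of_continuousAt_one f ?_
  rw [ContinuousAt, map_one]
  intro U hU
  obtain ⟨M, hM, hMU⟩ := (krullTopology_mem_nhds_one_iff K' L' U).1 hU
  obtain ⟨y₀, hy₀⟩ := Field.exists_primitive_element K' M
  have hMy₀ : M = IntermediateField.adjoin K' {(y₀ : L')} := by
    have h4 := congrArg (IntermediateField.map M.val) hy₀
    rw [IntermediateField.adjoin_map, Set.image_singleton, ← AlgHom.fieldRange_eq_map,
      IntermediateField.fieldRange_val] at h4
    exact h4.symm
  have h1 : IsOpen ((MulAction.stabilizer (L ≃ₐ[K] L) (ι (y₀ : L')) :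
    Subgroup (L ≃ₐ[K] L)) : Set (L ≃ₐ[K] L)) := stabilizer_isOpen_of_isIntegral (K := K) (L := L) _
  refine Filter.mem_map.2 (Filter.mem_of_superset (h1.mem_nhds (one_mem _)) ?_)
  intro g hg
  have hg' : g (ι (y₀ : L')) = ι (y₀ : L') := hg
  apply hMU
  show f g ∈ M.fixingSubgroup
  rw [IntermediateField.mem_fixingSubgroup_iff]
  intro y hy
  rw [hMy₀] at hy
  refine fix_adjoin (f g) {(y₀ : L')} ?_ y hy
  rintro _ rfl
  apply ι.injective
  rw [h, hg']

theorem isOpen_range_of_fixed {G K L : Type*} [Group G] [TopologicalSpace G] [CompactSpace G]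
    [Field K] [Field L] [Algebra K L] [IsGalois K L] (f : G →* (L ≃ₐ[K] L)) (hf : Continuous f)
    (M : IntermediateField K L) [FiniteDimensional K M] (h : ∀ x, (∀ g, f g x = x) → x ∈ M) :
    IsOpen (Set.range f) := by
  have hcl : IsClosed (f.range : Set (L ≃ₐ[K] L)) := by
    rw [MonoidHom.coe_range]
    exact (isCompact_range hf).isClosed
  have h1 : (IntermediateField.fixedField f.range).fixingSubgroup = f.range :=
    InfiniteGalois.fixingSubgroup_fixedField (⟨f.range, hcl⟩ : ClosedSubgroup (L ≃ₐ[K] L))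
  have h2 : IntermediateField.fixedField f.range ≤ M := by
    intro x hx
    refine h x fun g => ?_
    exact (IntermediateField.mem_fixedField_iff _ _).1 hx (f g) ⟨g, rfl⟩
  have h3 : M.fixingSubgroup ≤ f.range := by
    rw [← h1]
    exact IntermediateField.fixingSubgroup_antitone h2
  rw [← MonoidHom.coe_range]
  exact Subgroup.isOpen_mono h3 M.fixingSubgroup_isOpen

section Up

variable (F E : Type*) [Field F] [CharZero F] [Field E] [CharZero E] [Algebra F E]

/-- The image of `F` in an algebraic closure of `E`. -/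
noncomputable def im : IntermediateField ℚ (AlgebraicClosure E) :=
  (algebraMap F (AlgebraicClosure E)).toRatAlgHom.fieldRange

theorem mem_im (x : F) : algebraMap F (AlgebraicClosure E) x ∈ im F E := ⟨x, rfl⟩

/-- `F` is isomorphic to its image. -/
noncomputable def imEquiv : F ≃+* im F E :=
  RingEquiv.ofBijective ((algebraMap F (AlgebraicClosure E)).codRestrict (im F E) (mem_im F E))
    ⟨RingHom.injective _, fun y => by
      obtain ⟨x, hx⟩ := y.2
      exact ⟨x, Subtype.ext hx⟩⟩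

/-- Restriction of automorphisms of the algebraic closure. -/
noncomputable def upF : (AlgebraicClosure E ≃ₐ[im F E] AlgebraicClosure E) →*
    (AlgebraicClosure E ≃ₐ[F] AlgebraicClosure E) where
  toFun g := AlgEquiv.ofRingEquiv (f := g.toRingEquiv) fun r => g.commutes ⟨_, mem_im F E r⟩
  map_one' := rfl
  map_mul' _ _ := rfl

theorem upF_apply (g : AlgebraicClosure E ≃ₐ[im F E] AlgebraicClosure E)
    (x : AlgebraicClosure E) : upF F E g x = g x := rfl

theorem upF_surjective : Function.Surjective (upF F E) := by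
  intro g
  refine ⟨AlgEquiv.ofRingEquiv (f := g.toRingEquiv) fun r => ?_, rfl⟩
  obtain ⟨x, hx⟩ := r.2
  have hx' : algebraMap F (AlgebraicClosure E) x = (r : AlgebraicClosure E) := hx
  show g (r : AlgebraicClosure E) = r
  rw [← hx', g.commutes]

variable [Normal F E]

/-- Restriction to `E`. -/
noncomputable def res1 : (AlgebraicClosure E ≃ₐ[im F E] AlgebraicClosure E) →* (E ≃ₐ[F] E) :=
  (AlgEquiv.restrictNormalHom E).comp (upF F E)

theorem res1_apply (g : AlgebraicClosure E ≃ₐ[im F E] AlgebraicClosure E) (x : E) :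
    algebraMap E (AlgebraicClosure E) (res1 F E g x) = g (algebraMap E (AlgebraicClosure E) x) :=
  AlgEquiv.restrictNormal_commutes (upF F E g) E x

theorem res1_surjective : Function.Surjective (res1 F E) := by
  have halg : Algebra.IsAlgebraic F (AlgebraicClosure E) :=
    Algebra.IsAlgebraic.trans F E (AlgebraicClosure E)
  have hnorm : Normal F (AlgebraicClosure E) := ⟨fun x => IsAlgClosed.splits _⟩
  have h := AlgEquiv.restrictNormalHom_surjective (F := F) (K₁ := E) (E := AlgebraicClosure E)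
  exact h.comp (upF_surjective F E)

end Up

section

variable {F₁ E₁ F₂ E₂ : Type*} [Field F₁] [NumberField F₁] [Field E₁] [Algebra F₁ E₁]
    [IsGalois F₁ E₁] [Field F₂] [NumberField F₂] [Field E₂] [Algebra F₂ E₂] [IsGalois F₂ E₂]

omit [NumberField F₁] in
theorem isOpen_range_resQ [CharZero E₂] [IsGalois ℚ (QS E₂)]
    (α : (E₁ ≃ₐ[F₁] E₁) →* (E₂ ≃ₐ[F₂] E₂)) (hα : Continuous α) (hopen : IsOpen (Set.range α)) :
    IsOpen (Set.range ((resQ F₂ E₂).comp α)) := by
  have halg : Algebra.IsAlgebraic ℚ E₂ := Algebra.IsAlgebraic.trans ℚ F₂ E₂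
  have hres : Continuous (resQ F₂ E₂) :=
    continuous_of_res (algebraMap (QS E₂) E₂) (resQ F₂ E₂) (resQ_apply F₂ E₂)
  have hW : IsOpen (α.range : Set (E₂ ≃ₐ[F₂] E₂)) := by
    rw [MonoidHom.coe_range]
    exact hopen
  obtain ⟨hfd, hfix⟩ := finiteDimensional_fixedField α.range hW
  set K₀ := IntermediateField.fixedField α.range with hK₀
  have hfdQ : FiniteDimensional ℚ K₀ := FiniteDimensional.trans ℚ F₂ K₀
  let M : IntermediateField ℚ (QS E₂) := (K₀.restrictScalars ℚ).comap
    (algebraMap (QS E₂) E₂).toRatAlgHom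
  let ι : M →ₗ[ℚ] K₀ := 
    { toFun := fun x => ⟨algebraMap (QS E₂) E₂ x, x.2⟩
      map_add' := fun x y => rfl
      map_smul' := fun c x => by
        apply Subtype.ext
        simp [Algebra.smul_def] }
  have hι : Function.Injective ι := by
    intro x y hxy
    have h1 := congrArg (fun t : K₀ => (t : E₂)) hxy
    exact Subtype.ext ((algebraMap (QS E₂) E₂).injective h1)
  have hfdM : FiniteDimensional ℚ M := Module.Finite.of_injective ι hι
  refine isOpen_range_of_fixed ((resQ F₂ E₂).comp α) (hres.comp hα) M ?_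
  intro x hx
  show algebraMap (QS E₂) E₂ x ∈ K₀
  rw [hK₀, IntermediateField.mem_fixedField_iff]
  rintro _ ⟨g, rfl⟩
  have h1 := resQ_apply F₂ E₂ (α g) x
  have h2 : resQ F₂ E₂ (α g) x = x := hx g
  rw [h2] at h1
  exact h1.symm

end

/-- Uchida's conjecture for homomorphisms of the absolute Galois group of a totally real field to
the Galois group of a solvably closed Galois extension of the rationals. -/
def PropMAIN.{u, v} : Prop := ∀ (E₁ : Type u) (E₂ : Type v) [Field E₁] [CharZero E₁]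
  [IsAlgClosed E₁] [Algebra.IsAlgebraic ℚ E₁] [Field E₂] [CharZero E₂] [IsGalois ℚ E₂],
  SolvablyClosed E₂ → ∀ (F : IntermediateField ℚ E₁) [NumberField F]
  [NumberField.IsTotallyReal F] (a : (E₁ ≃ₐ[F] E₁) →* (E₂ ≃ₐ[ℚ] E₂)), Continuous a →
  IsOpen (Set.range a) → ∃ j : E₂ →+* E₁, ∀ (g : E₁ ≃ₐ[F] E₁) (x : E₂), g (j x) = j ((a g) x)

universe u v

theorem compat_of_main (hM : PropMAIN.{u, v}) {F₁ F₂ : Type*} {E₁ : Type u} {E₂ : Type v}
    [Field F₁] [NumberField F₁] [NumberField.IsTotallyReal F₁] [Field E₁] [Algebra F₁ E₁]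
    [IsGalois F₁ E₁] [Field F₂] [NumberField F₂] [Field E₂] [Algebra F₂ E₂] [IsGalois F₂ E₂]
    (hE₁ : SolvablyClosed E₁) (hE₂ : SolvablyClosed E₂) (α : (E₁ ≃ₐ[F₁] E₁) →* (E₂ ≃ₐ[F₂] E₂))
    (hα : Continuous α) (hopen : IsOpen (Set.range α)) (g : E₁ ≃ₐ[F₁] E₁) (n k : ℕ) (hn : 0 < n)
    (hg : ∀ z : E₁, z ^ n = 1 → g z = z ^ k) (z : E₂) (hz : z ^ n = 1) : (α g) z = z ^ k := by
  have hc₁ : CharZero E₁ := charZero_of_injective_algebraMap (algebraMap F₁ E₁).injective
  have hc₂ : CharZero E₂ := charZero_of_injective_algebraMap (algebraMap F₂ E₂).injective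
  have halg₁ : Algebra.IsAlgebraic ℚ E₁ := Algebra.IsAlgebraic.trans ℚ F₁ E₁
  have halg₂ : Algebra.IsAlgebraic ℚ E₂ := Algebra.IsAlgebraic.trans ℚ F₂ E₂
  have halgΩ : Algebra.IsAlgebraic ℚ (AlgebraicClosure E₁) :=
    Algebra.IsAlgebraic.trans ℚ E₁ (AlgebraicClosure E₁)
  have hgal := isGalois_QS (E := E₂) (fun n hn => hE₂.exists_primitiveRoot n hn)
    (fun n hn x => hE₂.exists_root n hn x)
  have hNF : NumberField (im F₁ E₁) := NumberField.of_ringEquiv F₁ (im F₁ E₁) (imEquiv F₁ E₁)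
  have hTR : NumberField.IsTotallyReal (im F₁ E₁) :=
    NumberField.IsTotallyReal.ofRingEquiv (imEquiv F₁ E₁)
  have hres1 : Continuous (res1 F₁ E₁) :=
    continuous_of_res (algebraMap E₁ (AlgebraicClosure E₁)) (res1 F₁ E₁) (res1_apply F₁ E₁)
  have hresQ : Continuous (resQ F₂ E₂) :=
    continuous_of_res (algebraMap (QS E₂) E₂) (resQ F₂ E₂) (resQ_apply F₂ E₂)
  obtain ⟨j, hj⟩ := hM (AlgebraicClosure E₁) (QS E₂)
    (solvablyClosed_QS (fun n hn => hE₂.exists_primitiveRoot n hn)
      (fun n hn x => hE₂.exists_root n hn x)) (im F₁ E₁)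
    (((resQ F₂ E₂).comp α).comp (res1 F₁ E₁)) ((hresQ.comp hα).comp hres1) (by
      rw [MonoidHom.coe_comp, (res1_surjective F₁ E₁).range_comp]
      exact isOpen_range_resQ α hα hopen)
  obtain ⟨g', rfl⟩ := res1_surjective F₁ E₁ g
  set y : QS E₂ := ⟨z, root_mem_QS n hn z (by rw [hz]; exact one_mem _)⟩ with hy
  have hyn : y ^ n = 1 := Subtype.ext hz
  obtain ⟨ξ, hξ⟩ := hE₁.exists_primitiveRoot n hn
  have _ : NeZero n := ⟨hn.ne'⟩
  have hξ' : IsPrimitiveRoot (algebraMap E₁ (AlgebraicClosure E₁) ξ) n :=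
    hξ.map_of_injective (algebraMap E₁ (AlgebraicClosure E₁)).injective
  obtain ⟨i, -, hi⟩ := hξ'.eq_pow_of_pow_eq_one (ξ := j y) (by rw [← map_pow, hyn, map_one])
  have h1 : g' (j y) = (j y) ^ k := by
    rw [← hi, ← map_pow, ← res1_apply, hg (ξ ^ i) (by
      rw [← pow_mul, mul_comm, pow_mul, hξ.pow_eq_one, one_pow]), map_pow]
  rw [hj, ← map_pow] at h1
  have h2 := j.injective h1
  have h3 := congrArg (fun t : QS E₂ => (t : E₂)) h2
  have h4 := resQ_apply F₂ E₂ (α (res1 F₁ E₁ g')) y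
  exact h4.symm.trans h3

end Vale.Agent.P024.H358.Red
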