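import Vale.Agent.P024.H358.Kummer

/-!
Solvably closed fields: the conditions for the primes in an ample set, and the earlier results.
-/

namespace Vale.Agent.P024.H358

open scoped NumberField Topology
open IsDedekindDomain Filter

/-- The notion of the helper files. -/
theorem alive_eq {F₁ E₁ F₂ E₂ : Type*} [Field F₁] [NumberField F₁] [Field E₁] [Algebra F₁ E₁]
    [IsGalois F₁ E₁] [Field F₂] [Field E₂] [Algebra F₂ E₂]
    (α : (E₁ ≃ₐ[F₁] E₁) →* (E₂ ≃ₐ[F₂] E₂)) (p : ℕ) : Alive α p = Vale.Agent.P024.Alive α p := by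
  ext v
  constructor
  · rintro ⟨hp, O, t, hO, ht, htp, hαt⟩
    refine ⟨hp, O, ?_, hO, t, ht.1, ?_, ?_, hαt⟩
    · rintro rfl
      obtain ⟨x, hx, hx0⟩ := Submodule.exists_mem_ne_zero_of_ne_bot v.ne_bot
      rcases Vale.Agent.P024.nonunits_iff.1 ((hO x).1 hx) with h | h
      · exact hx0 (by simpa using h)
      · exact h trivial
    · exact fun x hx => ht.2 x hx
    · intro x
      obtain ⟨n, hn⟩ := htp (MulAction.stabilizer (E₁ ≃ₐ[F₁] E₁) x)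
        (stabilizer_isOpen_of_isIntegral (K := F₁) (L := E₁) x)
      exact ⟨n, hn⟩
  · rintro ⟨hp, O, hO, hv, t, ht, ht1, htp, hαt⟩
    exact ⟨hp, O, t, hv, ⟨ht, fun x hx => ht1 x hx⟩, fun U hU => htp.mem_open U hU, hαt⟩

section

variable {F₁ E₁ F₂ E₂ : Type*} [Field F₁] [NumberField F₁] [Field E₁]
    [Algebra F₁ E₁] [IsGalois F₁ E₁] [Field F₂] [NumberField F₂] [Field E₂] [Algebra F₂ E₂]
    [IsGalois F₂ E₂]

/-- The conditions for the primes in an ample set. -/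
theorem closed_main (h₁ : IsSolvablyClosed E₁) (h₂ : IsSolvablyClosed E₂)
    (α : (E₁ ≃ₐ[F₁] E₁) →* (E₂ ≃ₐ[F₂] E₂)) (hα : Continuous α) {Q : Set ℕ} (hQ : Ample Q) :
    List.TFAE [
      ∃! j : E₂ →+* E₁, Induces α j,
      ∃ (N : ℕ) (U : Subgroup (E₁ ≃ₐ[F₁] E₁)), 0 < N ∧ IsOpen (U : Set (E₁ ≃ₐ[F₁] E₁)) ∧
        ∀ p ∈ Q, p.Prime → ∀ g ∈ U, AgreeUpTo α N p g,
      ∃ d : ℝ, 0 < d ∧ ∀ p ∈ Q, p.Prime → DensityAtLeast (Alive α p) d,
      IsOpen (Set.range α) ∧ ∃ d : ℝ, 0 < d ∧ ∀ p ∈ Q, p.Prime →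
        DensityAtLeast {v | v ∈ Alive α p ∧ Ideal.absNorm v.asIdeal ≡ 1 [MOD p]} (d / (p - 1))] ∧
    (IsOpen (Set.range α) → (∀ p ∈ Q, p.Prime →
      ∃ X : Set (E₁ ≃ₐ[F₁] E₁), X.Finite ∧ ∀ χ : (E₁ ≃ₐ[F₁] E₁) →* Multiplicative (ZMod p),
        IsOpen (χ.ker : Set (E₁ ≃ₐ[F₁] E₁)) → (∀ x ∈ X, χ x = 1) → ∀ g, α g = 1 → χ g = 1) →
      ∃! j : E₂ →+* E₁, Induces α j) := by
  have hc₁ : CharZero E₁ := charZero_of_injective_algebraMap (algebraMap F₁ E₁).injective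
  have hc₂ : CharZero E₂ := charZero_of_injective_algebraMap (algebraMap F₂ E₂).injective
  have hs₁ := Vale.Agent.P024.solvablyClosed_of_isAbelianGalois h₁
  have hs₂ := Vale.Agent.P024.solvablyClosed_of_isAbelianGalois h₂
  have hQ' := meetsSplit_of_ample hQ
  have huniq := Vale.Agent.P024.existsUnique_of_exists hs₁ hs₂ α
  have hF0 : (0 : ℝ) < Module.finrank ℚ F₁ := by
    rw [Nat.cast_pos]
    exact Module.finrank_pos
  simp only [alive_eq]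
  refine ⟨?_, ?_⟩
  · tfae_have 1 → 2 := by
      rintro ⟨j, hj, -⟩
      exact ⟨1, ⊤, one_pos, isOpen_univ, fun p _ hp g _ =>
        agree_of_compatible (roots_of_solvablyClosed h₂ p hp.pos) α
          (compatible_of_induces α j hj) hp g 1⟩
    tfae_have 2 → 1 := by
      rintro ⟨N, U, hN, hU, h⟩
      obtain ⟨l, hlN, hl⟩ := Nat.exists_infinite_primes (N + 3)
      have hcop : N.Coprime l := ((Nat.Prime.coprime_iff_not_dvd hl).2 (fun hd => by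
        have := Nat.le_of_dvd hN hd
        omega)).symm
      have hr₁ := isKummerClosed_of_solvablyClosed h₁ hl.pos
      have hr₂ := isKummerClosed_of_solvablyClosed h₂ hl.pos
      exact existsUnique_of_kummer hl hr₁ hr₂ α (induced_of_forward hl (by omega) hr₁ hr₂ α hα hQ
        U hU fun p hpQ hp hpl g hg => forward_of_agree hl hcop hr₁ hr₂
          (roots_of_solvablyClosed h₁ p hp.pos) (roots_of_solvablyClosed h₂ p hp.pos) α hp hpl g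
          (h p hpQ hp g hg))
    tfae_have 1 → 3 := by
      rintro ⟨j, hj, -⟩
      exact ⟨1 / 2, by norm_num, fun p _ hp =>
        Vale.Agent.P024.alive_dens_of_induced hs₁ hs₂ α j hj hp⟩
    tfae_have 3 → 1 := by
      rintro ⟨d, hd, h⟩
      exact huniq (Vale.Agent.P024.induced_of_alive hs₁ hs₂ α hα Q hQ' hd
        fun p hp hpQ => h p hpQ hp)
    tfae_have 1 → 4 := by
      rintro ⟨j, hj, -⟩
      exact ⟨Vale.Agent.P024.isOpen_range_of_induces α hα j hj, 1 / (2 * Module.finrank ℚ F₁),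
        by positivity, fun p _ hp =>
          Vale.Agent.P024.aliveOne_dens_of_induced hs₁ hs₂ α j hj hp⟩
    tfae_have 4 → 1 := by
      rintro ⟨hopen, d, hd, h⟩
      exact huniq (Vale.Agent.P024.induced_of_aliveOne hs₁ hs₂ α hα hopen Q hQ' hd
        fun p hp hpQ => h p hpQ hp)
    tfae_finish
  · intro hopen h
    exact huniq (Vale.Agent.P024.induced_of_finAb hs₁ hs₂ α hα hopen Q hQ'
      fun p hp hpQ => h p hpQ hp)

/-- The results of `LocalCorrespondence`. -/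
theorem local_main (hE₁ : IsSolvablyClosed E₁) (hE₂ : IsSolvablyClosed E₂)
    (α : (E₁ ≃ₐ[F₁] E₁) →* (E₂ ≃ₐ[F₂] E₂)) (hα : Continuous α) :
    List.TFAE [
      ∃! j : E₂ →+* E₁, Induces α j,
      CyclotomicCompatible α,
      ∃ (B : Set ℕ) (d : ℝ), DensityZero B ∧ 0 < d ∧
        ∀ p : ℕ, p.Prime → p ∉ B → DensityAtLeast (Alive α p) d,
      IsOpen (Set.range α) ∧ ∃ (B : Set ℕ) (d : ℝ), DensityZero B ∧ 0 < d ∧
        ∀ p : ℕ, p.Prime → p ∉ B →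
          DensityAtLeast {v | v ∈ Alive α p ∧ Ideal.absNorm v.asIdeal ≡ 1 [MOD p]} (d / (p - 1)),
      IsOpen (Set.range α) ∧ ∃ B : Set ℕ, DensityZero B ∧ ∀ p : ℕ, p.Prime → p ∉ B →
        {v | v ∈ Alive α p ∧ ∃ q : ℕ, q.Prime ∧ q ∉ B ∧ q ≡ 1 [MOD p] ∧
          (q : 𝓞 F₁) ∉ v.asIdeal ∧ v ∉ Alive α q}.Finite,
      IsOpen (Set.range α) ∧ ∃ (B : Set ℕ) (U : Subgroup (E₁ ≃ₐ[F₁] E₁)), DensityZero B ∧
        IsOpen (U : Set (E₁ ≃ₐ[F₁] E₁)) ∧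
        ∀ g ∈ U, α g = 1 → ∀ r : ℕ, r.Prime → r ∉ B → ∀ z : E₁, z ^ r = 1 → g z = z,
      IsOpen (Set.range α) ∧ ∃ B : Set ℕ, DensityZero B ∧ ∀ p : ℕ, p.Prime → p ∉ B →
        {v | v ∈ Alive α p ∧ ∃ (O : ValuationSubring E₁) (V : ValuationSubring E₂), Above O v ∧
          MapsInto α O V ∧ ∃ r : ℕ, (r : E₁) ∈ O.nonunits ∧ (r : E₂) ∉ V.nonunits}.Finite] ∧
    (∀ p : ℕ, p.Prime → p ≠ 2 → ∀ v ∈ Alive α p, ∀ O : ValuationSubring E₁, Above O v →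
      (∃ V : ValuationSubring E₂, MapsInto α O V ∧ (p : E₂) ∉ V.nonunits ∧
        ∀ V' : ValuationSubring E₂, MapsInto α O V' → V' = V) ∧
      ∀ s : E₁ ≃ₐ[F₁] E₁, ActsAs O (Ideal.absNorm v.asIdeal) s → ∀ (n : ℕ) (z : E₂),
        z ^ (p ^ n) = 1 → α s z = z ^ Ideal.absNorm v.asIdeal) ∧
    (IsOpen (Set.range α) → ∀ p : ℕ, p.Prime → (Alive α p).Infinite ∧
      (p ≠ 2 → {r : ℕ | r.Prime ∧ r ≡ 1 [MOD p] ∧ Alive α p ⊆ Alive α r}.Finite ∧
        {u : HeightOneSpectrum (𝓞 F₂) | ∃ V : ValuationSubring E₂, Above V u ∧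
          ¬ ∃ v ∈ Alive α p, ∃ O : ValuationSubring E₁, Above O v ∧ MapsInto α O V}.Finite ∧
        IsOpen (α '' {g | ∀ n k : ℕ, (∀ z : E₁, z ^ (p ^ n) = 1 → g z = z ^ k) →
          ∀ z : E₂, z ^ (p ^ n) = 1 → α g z = z ^ k}))) := by
  have hs₁ := Vale.Agent.P024.solvablyClosed_of_isAbelianGalois hE₁
  have hs₂ := Vale.Agent.P024.solvablyClosed_of_isAbelianGalois hE₂
  simp only [alive_eq]
  refine ⟨?_, ?_, ?_⟩
  · have h6 := Vale.Agent.P024.equiv hs₁ hs₂ α hα DensityZero (fun _ => Iff.rfl) DensityAtLeast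
      (fun _ _ => Iff.rfl)
    have h7 := Vale.Agent.P024.equiv₇ hs₁ hs₂ α hα DensityZero (fun _ => Iff.rfl)
    tfae_have 1 ↔ 2 := h6.out 0 1
    tfae_have 1 ↔ 3 := h6.out 0 2
    tfae_have 1 ↔ 4 := h6.out 0 3
    tfae_have 1 ↔ 5 := h6.out 0 4
    tfae_have 1 ↔ 6 := h6.out 0 5
    tfae_have 1 ↔ 7 := h7
    tfae_finish
  · intro p hp hp2 v hv O hO
    have hO' := Vale.Agent.P024.ne_top_of_center hO
    obtain ⟨V, ⟨hV, hst⟩, huniq⟩ :=
      Vale.Agent.P024.existsUnique_ring hs₁ hs₂ α hα hp hp2 O hO' v hO hv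
    refine ⟨⟨V, ⟨hV, hst⟩, Vale.Agent.P024.prime_notMem_of_stab hs₁ hs₂ α hα hp hp2 O hO' v hO hv
      V hV hst, fun V' hV' => huniq V' hV'⟩, ?_⟩
    intro s hs n z hz
    exact Vale.Agent.P024.frob_pow_of_alive hs₁ hs₂ α hα hp hp2 O hO' v hO hv s hs.1
      (fun x hx => hs.2 x hx) n z hz
  · intro hopen p hp
    refine ⟨Vale.Agent.P024.alive_infinite hs₁ hs₂ α hα hopen hp, fun hp2 =>
      ⟨Vale.Agent.P024.finite_subset_alive hs₁ hs₂ α hα hopen hp hp2, ?_,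
        Vale.Agent.P024.isOpen_image_compatAt hs₁ hs₂ α hα hopen hp hp2⟩⟩
    obtain ⟨W, hW, h⟩ := Vale.Agent.P024.exists_hits hs₁ hs₂ α hα hopen hp hp2 ∅ Set.finite_empty
    refine hW.subset ?_
    rintro u ⟨V, hVu, hV⟩
    by_contra hu
    have hV' := Vale.Agent.P024.ne_top_of_center hVu
    obtain ⟨v, hv, -, O, -, hOv, hst⟩ := h u hu V hV' hVu
    exact hV ⟨v, hv, O, hOv, hV', hst⟩

end

end Vale.Agent.P024.H358
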