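import Vale.Agent.P024.MathlibUsed

/-!
The notions of the statement.
-/

namespace Vale.Agent.P024.H358

open scoped NumberField Topology
open IsDedekindDomain Filter

/-- `E` has no nontrivial abelian algebraic extension. -/
def IsSolvablyClosed (E : Type*) [Field E] : Prop :=
  ∀ M : IntermediateField E (AlgebraicClosure E), IsAbelianGalois E M → M = ⊥

/-- `E` contains the `l`-th roots of unity and every element of `E` is an `l`-th power in `E`. -/
def IsKummerClosed (l : ℕ) (E : Type*) [Field E] : Prop :=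
  (∃ z : E, IsPrimitiveRoot z l) ∧ ∀ x : E, ∃ y : E, y ^ l = x

/-- The prime numbers in `B` have Dirichlet density zero. -/
def DensityZero (B : Set ℕ) : Prop :=
  Tendsto (fun s : ℝ => (∑' p : {p : ℕ | p.Prime ∧ p ∈ B}, ((p : ℕ) : ℝ) ^ (-s)) /
    Real.log (1 / (s - 1))) (𝓝[>] 1) (𝓝 0)

/-- For every number field `Z` which is Galois over the rationals, the prime numbers `p` in `Q` with
a homomorphism of the ring of integers of `Z` to `ZMod p` (up to finitely many `p`: which split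
completely in `Z`) have positive upper Dirichlet density. -/
def Ample (Q : Set ℕ) : Prop :=
  ∀ (Z : Type) [Field Z] [NumberField Z] [IsGalois ℚ Z], ∃ δ : ℝ, 0 < δ ∧
    ∃ᶠ s : ℝ in 𝓝[>] 1, δ * Real.log (1 / (s - 1)) ≤
      ∑' p : {p : ℕ | p.Prime ∧ p ∈ Q ∧ Nonempty (𝓞 Z →+* ZMod p)}, ((p : ℕ) : ℝ) ^ (-s)

/-- The primes of the number field `F` in `P` have upper Dirichlet density at least `d`. -/
def DensityAtLeast {F : Type*} [Field F] [NumberField F] (P : Set (HeightOneSpectrum (𝓞 F)))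
    (d : ℝ) : Prop :=
  ∃ᶠ s : ℝ in 𝓝[>] 1, d * Real.log (1 / (s - 1)) ≤
    ∑' v : P, (Ideal.absNorm v.1.asIdeal : ℝ) ^ (-s)

section

variable {F E : Type*} [Field F] [Field E] [Algebra F E]

/-- `g` is trivial on the image in `E` of the subfield of degree `l` of the field of `p`-th roots
of unity. -/
def TrivialOn (l p : ℕ) (g : E ≃ₐ[F] E) : Prop :=
  ∀ (C : IntermediateField ℚ (CyclotomicField p ℚ)) (f : C →+* E), Module.finrank ℚ C = l →
    ∀ x : C, g (f x) = f x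

/-- The valuation ring `O` of `E` lies above the prime `v` of `F`. -/
def Above (O : ValuationSubring E) (v : HeightOneSpectrum (𝓞 F)) : Prop :=
  ∀ x : 𝓞 F, x ∈ v.asIdeal ↔ algebraMap F E x ∈ O.nonunits

/-- `g` maps `O` onto itself and acts on the residue field of `O` as the `q`-th power map. For
`q = 1` this means that `g` is in the inertia group of `O`. -/
def ActsAs (O : ValuationSubring E) (q : ℕ) (g : E ≃ₐ[F] E) : Prop :=
  (∀ x : E, g x ∈ O ↔ x ∈ O) ∧ ∀ x ∈ O, g x - x ^ q ∈ O.nonunits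

/-- `g` has `p`-power order in every finite quotient of the Galois group. -/
def IsProP (p : ℕ) (g : E ≃ₐ[F] E) : Prop :=
  ∀ U : Subgroup (E ≃ₐ[F] E), IsOpen (U : Set (E ≃ₐ[F] E)) → ∃ n : ℕ, g ^ (p ^ n) ∈ U

end

section

variable {F₁ E₁ F₂ E₂ : Type*} [Field F₁] [Field E₁] [Algebra F₁ E₁] [Field F₂] [Field E₂]
  [Algebra F₂ E₂]

/-- The field embedding `j` induces the homomorphism `α`: `g ∘ j = j ∘ α(g)` for all `g`. -/
def Induces (α : (E₁ ≃ₐ[F₁] E₁) →* (E₂ ≃ₐ[F₂] E₂)) (j : E₂ →+* E₁) : Prop :=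
  ∀ (g : E₁ ≃ₐ[F₁] E₁) (x : E₂), g (j x) = j ((α g) x)

/-- If `g` raises the `n`-th roots of unity of `E₁` to the power `k`, then so does `α(g)` on the
`n`-th roots of unity of `E₂`. -/
def CyclotomicCompatible (α : (E₁ ≃ₐ[F₁] E₁) →* (E₂ ≃ₐ[F₂] E₂)) : Prop :=
  ∀ (g : E₁ ≃ₐ[F₁] E₁) (n k : ℕ), 0 < n → (∀ z : E₁, z ^ n = 1 → g z = z ^ k) →
    ∀ z : E₂, z ^ n = 1 → (α g) z = z ^ k

/-- The `N`-th powers of the mod `p` cyclotomic character and of its pullback under `α` agree at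
`g`. -/
def AgreeUpTo (α : (E₁ ≃ₐ[F₁] E₁) →* (E₂ ≃ₐ[F₂] E₂)) (N p : ℕ) (g : E₁ ≃ₐ[F₁] E₁) : Prop :=
  ∀ a b : ℕ, (∀ z : E₁, z ^ p = 1 → g z = z ^ a) → (∀ z : E₂, z ^ p = 1 → (α g) z = z ^ b) →
    a ^ N ≡ b ^ N [MOD p]

/-- The primes `v` of `F₁`, not above `p`, such that `α` does not kill the pro-`p` elements of the
inertia groups above `v`. -/
def Alive (α : (E₁ ≃ₐ[F₁] E₁) →* (E₂ ≃ₐ[F₂] E₂)) (p : ℕ) : Set (HeightOneSpectrum (𝓞 F₁)) :=
  {v | (p : 𝓞 F₁) ∉ v.asIdeal ∧ ∃ (O : ValuationSubring E₁) (t : E₁ ≃ₐ[F₁] E₁),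
    Above O v ∧ ActsAs O 1 t ∧ IsProP p t ∧ α t ≠ 1}

/-- `V` is a nontrivial valuation ring of `E₂` and `α` maps the decomposition group of `O` into the
decomposition group of `V`. -/
def MapsInto (α : (E₁ ≃ₐ[F₁] E₁) →* (E₂ ≃ₐ[F₂] E₂)) (O : ValuationSubring E₁)
    (V : ValuationSubring E₂) : Prop :=
  V ≠ ⊤ ∧ ∀ g : E₁ ≃ₐ[F₁] E₁, (∀ x : E₁, g x ∈ O ↔ x ∈ O) → ∀ x : E₂, (α g) x ∈ V ↔ x ∈ V

end

end Vale.Agent.P024.H358
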