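import Vale.Agent.P024.Bdl.B2
import Vale.Agent.P024.H358.Defs
import Mathlib.NumberTheory.Cyclotomic.Gal

/-!
The subfield of degree `l` of the field of `p`-th roots of unity.
-/

namespace Vale.Agent.P024.H358

open IntermediateField

theorem exists_aut {p : ℕ} (hp : p.Prime) {a : ℕ} (ha : a.Coprime p) :
    ∃ σ : CyclotomicField p ℚ ≃ₐ[ℚ] CyclotomicField p ℚ,
      (∀ z : CyclotomicField p ℚ, IsPrimitiveRoot z p → σ z = z ^ a) ∧
      ∀ m : ℕ, σ ^ m = 1 ↔ a ^ m ≡ 1 [MOD p] := by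
  have : NeZero p := ⟨hp.ne_zero⟩
  have hcyc : IsCyclotomicExtension {p} ℚ (CyclotomicField p ℚ) :=
    CyclotomicField.isCyclotomicExtension p ℚ
  have hirr := Polynomial.cyclotomic.irreducible_rat hp.pos
  let φ := IsCyclotomicExtension.autEquivPow (CyclotomicField p ℚ) hirr
  let u : (ZMod p)ˣ := ZMod.unitOfCoprime a ha
  refine ⟨φ.symm u, ?_, ?_⟩
  · intro z hz
    have hζ := IsCyclotomicExtension.zeta_spec p ℚ (CyclotomicField p ℚ)
    set ζ := IsCyclotomicExtension.zeta p ℚ (CyclotomicField p ℚ)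
    have h1 : φ.symm u ζ = ζ ^ a := by
      have h2 := hζ.autToPow_spec ℚ (φ.symm u)
      have h3 : hζ.autToPow ℚ (φ.symm u) = u := φ.apply_symm_apply u
      rw [← h2, h3, ZMod.coe_unitOfCoprime, ZMod.val_natCast]
      exact (pow_eq_pow_mod a hζ.pow_eq_one).symm
    obtain ⟨i, -, rfl⟩ := hζ.eq_pow_of_pow_eq_one hz.pow_eq_one
    rw [map_pow, h1, ← pow_mul, ← pow_mul, mul_comm]
  · intro m
    rw [← map_pow, MulEquiv.map_eq_one_iff, Units.ext_iff, Units.val_pow_eq_pow_val,
      ZMod.coe_unitOfCoprime, Units.val_one, ← ZMod.natCast_eq_natCast_iff, Nat.cast_pow,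
      Nat.cast_one]

theorem card_gal {p : ℕ} (hp : p.Prime) :
    Nat.card (CyclotomicField p ℚ ≃ₐ[ℚ] CyclotomicField p ℚ) = p - 1 := by
  have : NeZero p := ⟨hp.ne_zero⟩
  have hcyc : IsCyclotomicExtension {p} ℚ (CyclotomicField p ℚ) :=
    CyclotomicField.isCyclotomicExtension p ℚ
  have hirr := Polynomial.cyclotomic.irreducible_rat hp.pos
  rw [Nat.card_congr (IsCyclotomicExtension.autEquivPow (CyclotomicField p ℚ) hirr).toEquiv,
    Nat.card_eq_fintype_card, ZMod.card_units_eq_totient, Nat.totient_prime hp]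

theorem finrank_cyc {p : ℕ} (hp : p.Prime) :
    Module.finrank ℚ (CyclotomicField p ℚ) = p - 1 := by
  have : NeZero p := ⟨hp.ne_zero⟩
  have hcyc : IsCyclotomicExtension {p} ℚ (CyclotomicField p ℚ) :=
    CyclotomicField.isCyclotomicExtension p ℚ
  rw [IsCyclotomicExtension.finrank (n := p) (CyclotomicField p ℚ)
    (Polynomial.cyclotomic.irreducible_rat hp.pos), Nat.totient_prime hp]

theorem isCyclic_gal {p : ℕ} (hp : p.Prime) :
    IsCyclic (CyclotomicField p ℚ ≃ₐ[ℚ] CyclotomicField p ℚ) := by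
  have : NeZero p := ⟨hp.ne_zero⟩
  have hcyc : IsCyclotomicExtension {p} ℚ (CyclotomicField p ℚ) :=
    CyclotomicField.isCyclotomicExtension p ℚ
  have : Fact p.Prime := ⟨hp⟩
  have hirr := Polynomial.cyclotomic.irreducible_rat hp.pos
  have : IsCyclic (ZMod p)ˣ := inferInstance
  exact isCyclic_of_surjective
    (IsCyclotomicExtension.autEquivPow (CyclotomicField p ℚ) hirr).symm
    (IsCyclotomicExtension.autEquivPow (CyclotomicField p ℚ) hirr).symm.surjective

theorem mem_iff_pow {G : Type*} [Group G] [Finite G] [IsCyclic G] (H : Subgroup G) {m : ℕ}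
    (hm : Nat.card H = m) (x : G) : x ∈ H ↔ x ^ m = 1 := by
  classical
  have := Fintype.ofFinite G
  constructor
  · intro hx
    have := pow_card_eq_one' (x := (⟨x, hx⟩ : H))
    rw [hm] at this
    simpa using congrArg Subtype.val this
  · intro hx
    have hm0 : 0 < m := by rw [← hm]; exact Nat.card_pos
    have h1 := IsCyclic.card_pow_eq_one_le (α := G) hm0
    have h2 : (Finset.univ.filter fun a : G => a ∈ H) ⊆ Finset.univ.filter fun a : G => a ^ m = 1 := by
      intro a ha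
      rw [Finset.mem_filter] at ha ⊢
      refine ⟨Finset.mem_univ _, ?_⟩
      have := pow_card_eq_one' (x := (⟨a, ha.2⟩ : H))
      rw [hm] at this
      simpa using congrArg Subtype.val this
    have h3 : (Finset.univ.filter fun a : G => a ∈ H).card = m := by
      rw [← hm, Nat.card_eq_fintype_card, ← Fintype.card_subtype]
    have h4 := Finset.eq_of_subset_of_card_le h2 (by rw [h3]; exact h1)
    have h5 : x ∈ Finset.univ.filter fun a : G => a ^ m = 1 := by simp [hx]
    rw [← h4] at h5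
    simpa using h5

theorem exists_subfield {l p : ℕ} (hl : l.Prime) (hp : p.Prime) (hlp : l ∣ p - 1) :
    ∃ C : IntermediateField ℚ (CyclotomicField p ℚ), Module.finrank ℚ C = l := by
  have : NeZero p := ⟨hp.ne_zero⟩
  have hcyc : IsCyclotomicExtension {p} ℚ (CyclotomicField p ℚ) :=
    CyclotomicField.isCyclotomicExtension p ℚ
  have hc := isCyclic_gal hp
  have : IsGalois ℚ (CyclotomicField p ℚ) := IsCyclotomicExtension.isGalois {p} ℚ _
  obtain ⟨γ, hγ⟩ := hc.exists_generator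
  have h1 : orderOf γ = p - 1 := by rw [← card_gal hp]; exact orderOf_eq_card_of_forall_mem_zpowers hγ
  have hp1 : 0 < p - 1 := by have := hp.two_le; omega
  refine ⟨fixedField (Subgroup.zpowers (γ ^ l)), ?_⟩
  have h2 : Module.finrank (fixedField (Subgroup.zpowers (γ ^ l))) (CyclotomicField p ℚ) =
      (p - 1) / l := by
    rw [finrank_fixedField_eq_card, Nat.card_zpowers, orderOf_pow, h1,
      Nat.gcd_eq_right hlp]
  have h3 := Module.finrank_mul_finrank ℚ (fixedField (Subgroup.zpowers (γ ^ l)))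
    (CyclotomicField p ℚ)
  rw [h2, finrank_cyc hp] at h3
  obtain ⟨m, hm⟩ := hlp
  rw [hm, Nat.mul_div_cancel_left _ hl.pos] at h3
  have hm0 : 0 < m := by
    rcases Nat.eq_zero_or_pos m with h | h
    · rw [h, mul_zero] at hm; omega
    · exact h
  exact Nat.eq_of_mul_eq_mul_right hm0 h3

/-- Action on the subfield of degree `l`. -/
theorem core_cyc {l p : ℕ} (hl : l.Prime) (hp : p.Prime) (hlp : l ∣ p - 1) {Ω : Type*} [Field Ω]
    [CharZero Ω] (Φ : CyclotomicField p ℚ →+* Ω) (C : IntermediateField ℚ (CyclotomicField p ℚ))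
    (hC : Module.finrank ℚ C = l) (G : Ω →+* Ω) {ξ : Ω} (hξ : IsPrimitiveRoot ξ p) {a : ℕ}
    (ha : G ξ = ξ ^ a) : (∀ x : C, G (Φ x) = Φ x) ↔ a ^ ((p - 1) / l) ≡ 1 [MOD p] := by
  have : NeZero p := ⟨hp.ne_zero⟩
  have hcyc : IsCyclotomicExtension {p} ℚ (CyclotomicField p ℚ) :=
    CyclotomicField.isCyclotomicExtension p ℚ
  have hc := isCyclic_gal hp
  have : IsGalois ℚ (CyclotomicField p ℚ) := IsCyclotomicExtension.isGalois {p} ℚ _
  have hac : a.Coprime p := by
    have h2 : IsPrimitiveRoot (G ξ) p := hξ.map_of_injective G.injective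
    rw [ha] at h2
    exact (hξ.pow_iff_coprime hp.pos a).1 h2
  obtain ⟨σ, hσ, hσm⟩ := exists_aut hp hac
  have hζ := IsCyclotomicExtension.zeta_spec p ℚ (CyclotomicField p ℚ)
  set ζ := IsCyclotomicExtension.zeta p ℚ (CyclotomicField p ℚ)
  have h1 : G (Φ ζ) = Φ (σ ζ) := by
    have h2 : (Φ ζ) ^ p = 1 := by rw [← map_pow, hζ.pow_eq_one, map_one]
    obtain ⟨i, -, hi⟩ := hξ.eq_pow_of_pow_eq_one h2
    rw [hσ ζ hζ, map_pow, ← hi, map_pow, ha, ← pow_mul, ← pow_mul, mul_comm]
  have h2 : ∀ x : CyclotomicField p ℚ, G (Φ x) = Φ (σ x) := by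
    let A : CyclotomicField p ℚ →ₐ[ℚ] Ω := (G.comp Φ).toRatAlgHom
    let B : CyclotomicField p ℚ →ₐ[ℚ] Ω := (Φ.comp (σ : CyclotomicField p ℚ →+* _)).toRatAlgHom
    have hAB : A = B := by
      apply (hζ.powerBasis ℚ).algHom_ext
      rw [hζ.powerBasis_gen ℚ]
      exact h1
    intro x
    exact congrArg (fun t : CyclotomicField p ℚ →ₐ[ℚ] Ω => t x) hAB
  have h3 : Nat.card C.fixingSubgroup = (p - 1) / l := by
    rw [IsGalois.card_fixingSubgroup_eq_finrank]
    have h3 := Module.finrank_mul_finrank ℚ C (CyclotomicField p ℚ)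
    rw [hC, finrank_cyc hp] at h3
    rw [← h3, Nat.mul_div_cancel_left _ hl.pos]
  rw [← hσm, ← mem_iff_pow C.fixingSubgroup h3 σ, IntermediateField.mem_fixingSubgroup_iff]
  constructor
  · intro h x hx
    have h4 := h ⟨x, hx⟩
    rw [h2] at h4
    exact Φ.injective h4
  · intro h x
    rw [h2, h x x.2]

theorem exists_extend {p : ℕ} (hp : p.Prime) {E Ω : Type*} [Field E] [Field Ω] [IsAlgClosed Ω] (i : E →+* Ω)
    (C : IntermediateField ℚ (CyclotomicField p ℚ)) (f : C →+* E) :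
    ∃ Φ : CyclotomicField p ℚ →+* Ω, ∀ x : C, Φ x = i (f x) := by
  let _ : Algebra C Ω := (i.comp f).toAlgebra
  have : NeZero p := ⟨hp.ne_zero⟩
  have hcyc : IsCyclotomicExtension {p} ℚ (CyclotomicField p ℚ) :=
    CyclotomicField.isCyclotomicExtension p ℚ
  have : FiniteDimensional ℚ (CyclotomicField p ℚ) :=
    IsCyclotomicExtension.finiteDimensional {p} ℚ _
  have : Algebra.IsAlgebraic C (CyclotomicField p ℚ) :=
    Algebra.IsAlgebraic.tower_top (K := ℚ) C
  let Φ : CyclotomicField p ℚ →ₐ[C] Ω := IsAlgClosed.lift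
  exact ⟨Φ, fun x => Φ.commutes x⟩

end Vale.Agent.P024.H358
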