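import Vale.Agent.P024.M4.Asm6

/-!
For every number field: the cyclotomic characters agree up to torsion.
-/

namespace Vale.Agent.P024.H358.Red

open IntermediateField M4
open scoped Topology

universe u v

theorem finrank_im (F E : Type*) [Field F] [NumberField F] [Field E] [CharZero E] [Algebra F E]
    [Algebra.IsAlgebraic F E] :
    (im F E).fixingSubgroup.index = Module.finrank ℚ F := by
  have halg : Algebra.IsAlgebraic ℚ E := Algebra.IsAlgebraic.trans ℚ F E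
  have halgΩ : Algebra.IsAlgebraic ℚ (AlgebraicClosure E) :=
    Algebra.IsAlgebraic.trans ℚ E (AlgebraicClosure E)
  have hgal : IsGalois ℚ (AlgebraicClosure E) := H157.isGalois_closed
  have h1 := IntermediateField.finrank_eq_fixingSubgroup_index (AlgebraicClosure E) (im F E)
  let f : F →ₐ[ℚ] AlgebraicClosure E := (algebraMap F (AlgebraicClosure E)).toRatAlgHom
  exact h1.symm.trans (AlgEquiv.ofInjectiveField f).toLinearEquiv.finrank_eq.symm

theorem agree_all (hT3 : PropT3.{v}) {F₁ F₂ : Type*} {E₁ : Type u} {E₂ : Type v}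
    [Field F₁] [NumberField F₁] [Field E₁] [Algebra F₁ E₁]
    [IsGalois F₁ E₁] [Field F₂] [NumberField F₂] [Field E₂] [Algebra F₂ E₂] [IsGalois F₂ E₂]
    (hE₁ : SolvablyClosed E₁) (hE₂ : SolvablyClosed E₂) (α : (E₁ ≃ₐ[F₁] E₁) →* (E₂ ≃ₐ[F₂] E₂))
    (hα : Continuous α) (hopen : IsOpen (Set.range α)) :
    ∃ B : Set ℕ, B.Finite ∧ ∀ p : ℕ, p.Prime → p ∉ B → (Module.finrank ℚ F₁).factorial ∣ p - 1 →
      ∀ (g : E₁ ≃ₐ[F₁] E₁) (n x y : ℕ), (∀ z : E₁, z ^ (p ^ n) = 1 → g z = z ^ x) →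
        (∀ z : E₂, z ^ (p ^ n) = 1 → (α g) z = z ^ y) → x ^ (p - 1) ≡ y ^ (p - 1) [MOD p ^ n] := by
  have hc₁ : CharZero E₁ := charZero_of_injective_algebraMap (algebraMap F₁ E₁).injective
  have hc₂ : CharZero E₂ := charZero_of_injective_algebraMap (algebraMap F₂ E₂).injective
  have halg₁ : Algebra.IsAlgebraic ℚ E₁ := Algebra.IsAlgebraic.trans ℚ F₁ E₁
  have halg₂ : Algebra.IsAlgebraic ℚ E₂ := Algebra.IsAlgebraic.trans ℚ F₂ E₂
  have halgΩ : Algebra.IsAlgebraic ℚ (AlgebraicClosure E₁) :=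
    Algebra.IsAlgebraic.trans ℚ E₁ (AlgebraicClosure E₁)
  have hgal := isGalois_QS (E := E₂) (fun n hn => hE₂.exists_primitiveRoot n hn)
    (fun n hn x => hE₂.exists_root n hn x)
  have hscl := solvablyClosed_QS (E := E₂) (fun n hn => hE₂.exists_primitiveRoot n hn)
    (fun n hn x => hE₂.exists_root n hn x)
  have hNF : NumberField (im F₁ E₁) := NumberField.of_ringEquiv F₁ (im F₁ E₁) (imEquiv F₁ E₁)
  have hres1 : Continuous (res1 F₁ E₁) :=
    continuous_of_res (algebraMap E₁ (AlgebraicClosure E₁)) (res1 F₁ E₁) (res1_apply F₁ E₁)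
  have hresQ : Continuous (resQ F₂ E₂) :=
    continuous_of_res (algebraMap (QS E₂) E₂) (resQ F₂ E₂) (resQ_apply F₂ E₂)
  set a := ((resQ F₂ E₂).comp α).comp (res1 F₁ E₁) with ha
  obtain ⟨B, hB, hB'⟩ := eta_all hT3 hscl (Module.finrank ℚ F₁) (im F₁ E₁) (finrank_im F₁ E₁)
    a ((hresQ.comp hα).comp hres1) (by
      rw [ha, MonoidHom.coe_comp, (res1_surjective F₁ E₁).range_comp]
      exact isOpen_range_resQ α hα hopen)
  refine ⟨B ∪ {2}, hB.union (Set.finite_singleton 2), ?_⟩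
  intro p hp hpB hdvd g n x y hx hy
  have hpB' : p ∉ B := fun h => hpB (Or.inl h)
  have hp2 : p ≠ 2 := fun h => hpB (Or.inr h)
  have hpf : Fact p.Prime := ⟨hp⟩
  obtain ⟨m, hm, hm'⟩ := hB' p hpB' hdvd
  obtain ⟨g', rfl⟩ := res1_surjective F₁ E₁ g
  have hpos : ∀ i : ℕ, 0 < p ^ i := fun i => pow_pos hp.pos i
  have hroot₁ : ∀ i, ∃ ζ : AlgebraicClosure E₁, IsPrimitiveRoot ζ (p ^ i) := by
    intro i
    obtain ⟨ζ, hζ⟩ := hE₁.exists_primitiveRoot _ (hpos i)
    exact ⟨_, hζ.map_of_injective (algebraMap E₁ (AlgebraicClosure E₁)).injective⟩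
  have hroot₂ : ∀ i, ∃ ζ : QS E₂, IsPrimitiveRoot ζ (p ^ i) :=
    fun i => hscl.exists_primitiveRoot _ (hpos i)
  have h1 : eta a p g' ^ (p - 1) = 1 :=
    eq_one_of_pow_eq_one hp2 (redu_one_pow _) hm (by
      rw [← pow_mul, mul_comm, pow_mul, hm' g', one_pow])
  have h2 : redu n (eta a p g') ^ (p - 1) = 1 := by rw [← map_pow, h1, map_one]
  rw [eta_apply, map_mul, map_inv, mul_pow, inv_pow, mul_inv_eq_one] at h2
  have _ : NeZero (p ^ n) := ⟨(hpos n).ne'⟩
  obtain ⟨ξ, hξ⟩ := hE₁.exists_primitiveRoot _ (hpos n)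
  have hξ' : IsPrimitiveRoot (algebraMap E₁ (AlgebraicClosure E₁) ξ) (p ^ n) :=
    hξ.map_of_injective (algebraMap E₁ (AlgebraicClosure E₁)).injective
  have h3 := (redu_chi_iff hroot₁ g' n x).2 (by
    intro z hz
    obtain ⟨i, -, hi⟩ := hξ'.eq_pow_of_pow_eq_one hz
    rw [← hi, ← map_pow, ← res1_apply, hx (ξ ^ i) (by
      rw [← pow_mul, mul_comm, pow_mul, hξ.pow_eq_one, one_pow]), map_pow])
  have h4 := (redu_chi_iff hroot₂ (a g') n y).2 (by
    intro z hz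
    apply Subtype.ext
    have h5 := resQ_apply F₂ E₂ (α (res1 F₁ E₁ g')) z
    refine h5.trans ?_
    have hz' : (z : E₂) ^ (p ^ n) = 1 := congrArg (fun t : QS E₂ => (t : E₂)) hz
    exact hy z hz')
  have h5 := congrArg Units.val h2
  rw [Units.val_pow_eq_pow_val, Units.val_pow_eq_pow_val, h3, h4, ← Nat.cast_pow,
    ← Nat.cast_pow, ZMod.natCast_eq_natCast_iff] at h5
  exact h5.symm

end Vale.Agent.P024.H358.Red
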