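import Vale.Agent.P024.H358.Cyc

/-!
Gauss sums in fields which need not contain the `p`-th roots of unity.
-/

namespace Vale.Agent.P024.H358

open scoped NumberField
open IsDedekindDomain IntermediateField Vale.Agent.P024

section Pull

variable {K Z : Type*} [Field K] [NumberField K] [Field Z] [NumberField Z] (f : K →+* Z)
  (P : HeightOneSpectrum (𝓞 Z))

theorem dvdVal_pull_iff (hf : Function.Surjective f) {l : ℕ} (x : K) :
    DvdVal (pullPrime f P) l x ↔ DvdVal P l (f x) := by
  constructor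
  · rintro ⟨z, hz⟩
    refine ⟨f z, ?_⟩
    rw [← map_pow, ← map_mul]
    exact valuation_pull_eq_one f P hz
  · rintro ⟨z', hz⟩
    obtain ⟨z, rfl⟩ := hf z'
    refine ⟨z, ?_⟩
    rw [valuation_pull_eq_one_iff, map_mul, map_pow]
    exact hz

theorem exp_pull (hf : Function.Surjective f) {y : K}
    (hy : (pullPrime f P).valuation K y = WithZero.exp (-1 : ℤ)) :
    P.valuation Z (f y) = WithZero.exp (-1 : ℤ) := by
  obtain ⟨u', hu'⟩ := P.valuation_exists_uniformizer Z
  obtain ⟨u, rfl⟩ := hf u'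
  have hu0 : u ≠ 0 := by
    rintro rfl
    rw [map_zero, map_zero] at hu'
    exact WithZero.exp_ne_zero hu'.symm
  have hy0 : y ≠ 0 := by
    rintro rfl
    rw [map_zero] at hy
    exact WithZero.exp_ne_zero hy.symm
  have h1 := log_pull f P hy hu0
  rw [hu'] at h1
  have h2 : P.valuation Z (f y) < 1 := by
    refine valuation_pull_lt_one f P ?_
    rw [hy, ← WithZero.exp_zero, WithZero.exp_lt_exp]
    norm_num
  have h3 : P.valuation Z (f y) ≠ 0 :=
    (Valuation.ne_zero_iff _).2 ((map_ne_zero f).2 hy0)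
  have h4 : WithZero.log (P.valuation Z (f y)) < 0 := by
    rw [← WithZero.exp_lt_exp, WithZero.exp_log h3, WithZero.exp_zero]
    exact h2
  rw [WithZero.log_exp] at h1
  have h5 : WithZero.log ((pullPrime f P).valuation K u) * WithZero.log (P.valuation Z (f y)) = 1 := by
    linarith
  have h6 : WithZero.log (P.valuation Z (f y)) = -1 := by
    rcases Int.eq_one_or_neg_one_of_mul_eq_one (by rw [mul_comm]; exact h5) with h | h
    · omega
    · exact h
  rw [← WithZero.exp_log h3, h6]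

end Pull

section Gauss

variable {F E : Type*} [Field F] [Field E] [Algebra F E] [IsGalois F E] [CharZero E]

omit [CharZero E] in
theorem isGalois_closure [CharZero F] : IsGalois F (AlgebraicClosure E) := by
  have h1 : Algebra.IsAlgebraic F E := inferInstance
  have : Algebra.IsAlgebraic F (AlgebraicClosure E) := Algebra.IsAlgebraic.trans F E _
  have : Normal F (AlgebraicClosure E) := normal_iff.2 fun x =>
    ⟨(Algebra.IsAlgebraic.isAlgebraic x).isIntegral, IsAlgClosed.splits _⟩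
  exact ⟨⟩

theorem exists_gauss_closure {l p : ℕ} (hl : l.Prime) (hp : p.Prime) (hlp : l ∣ p - 1)
    {ζ : E} (hζ : IsPrimitiveRoot ζ l) (hpow : ∀ x : E, ∃ y : E, y ^ l = x)
    (K : IntermediateField F E) [NumberField K] (hζK : ζ ∈ K) {ξ : AlgebraicClosure E}
    (hξ : IsPrimitiveRoot ξ p) :
    ∃ (b : E) (x : K), b ≠ 0 ∧ b ^ l = (x : E) ∧
      (∀ G : AlgebraicClosure E ≃ₐ[F] AlgebraicClosure E,
        (∀ y ∈ K, G (algebraMap E _ y) = algebraMap E _ y) → ∀ a : ℕ, G ξ = ξ ^ a →
        (G (algebraMap E _ b) = algebraMap E _ b ↔ a ^ ((p - 1) / l) ≡ 1 [MOD p])) ∧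
      (∀ w : HeightOneSpectrum (𝓞 K), w.valuation K (p : K) = WithZero.exp (-1 : ℤ) →
        ¬ DvdVal w l x) ∧
      (∀ w : HeightOneSpectrum (𝓞 K), (p : 𝓞 K) ∉ w.asIdeal → DvdVal w l x) := by
  have : CharZero F := (algebraMap F E).charZero
  have : IsGalois F (AlgebraicClosure E) := isGalois_closure
  have : CharZero (AlgebraicClosure E) :=
    charZero_of_injective_algebraMap (algebraMap E (AlgebraicClosure E)).injective
  let i : E →ₐ[F] AlgebraicClosure E := IsScalarTower.toAlgHom F E (AlgebraicClosure E)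
  let K' : IntermediateField F (AlgebraicClosure E) := K.map i
  let e : K ≃ₐ[F] K' := K.equivMap i
  have : NumberField K' := NumberField.of_ringEquiv K K' e.toRingEquiv
  have hζ' : IsPrimitiveRoot (i ζ) l := hζ.map_of_injective i.injective
  obtain ⟨b', x', hb0, hb', hact, hv1, hv2⟩ := gauss_kummer K' hl hp hlp hζ' ⟨ζ, hζK, rfl⟩ hξ
  obtain ⟨x, rfl⟩ := e.surjective x'
  have hex : ((e x : K') : AlgebraicClosure E) = i (x : E) := rfl
  have hx0 : (x : E) ≠ 0 := by
    intro h0
    rw [hex, h0, map_zero] at hb'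
    exact hb0 (pow_eq_zero_iff hl.ne_zero |>.1 hb')
  obtain ⟨y, hy⟩ := hpow (x : E)
  have hy0 : y ≠ 0 := by
    rintro rfl
    rw [zero_pow hl.ne_zero] at hy
    exact hx0 hy.symm
  have hiy0 : i y ≠ 0 := by simpa using hy0
  have hnz : NeZero l := ⟨hl.ne_zero⟩
  obtain ⟨k, -, hk⟩ := hζ'.eq_pow_of_pow_eq_one (ξ := b' / i y) (by
    rw [div_pow, hb', hex, ← map_pow, hy, div_self]
    simpa using hx0)
  have hb'' : b' = i (ζ ^ k * y) := by
    rw [map_mul, map_pow, hk, div_mul_cancel₀ _ hiy0]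
  subst hb''
  refine ⟨ζ ^ k * y, x, ?_, ?_, ?_, ?_, ?_⟩
  · intro h0
    rw [h0, map_zero] at hb0
    exact hb0 rfl
  · rw [hex, ← map_pow] at hb'
    exact i.injective hb'
  · intro G hG a ha
    refine hact G ?_ a ha
    rintro _ ⟨y, hy, rfl⟩
    exact hG y hy
  · intro w hw
    obtain ⟨P, rfl⟩ := exists_pull_eq (e.toRingEquiv.toRingHom) w
    rw [dvdVal_pull_iff _ _ e.surjective]
    refine hv1 P ?_
    have := exp_pull _ _ e.surjective hw
    rw [map_natCast] at this
    exact this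
  · intro w hw
    obtain ⟨P, rfl⟩ := exists_pull_eq (e.toRingEquiv.toRingHom) w
    rw [dvdVal_pull_iff _ _ e.surjective]
    refine hv2 P ?_
    rw [mem_pullPrime, map_natCast] at hw
    exact hw

theorem exists_subfield_embedding {l p : ℕ} (hl : l.Prime) (hp : p.Prime) (hlp : l ∣ p - 1)
    {ζ : E} (hζ : IsPrimitiveRoot ζ l) (hpow : ∀ x : E, ∃ y : E, y ^ l = x)
    (K : IntermediateField F E) [NumberField K] (hζK : ζ ∈ K) :
    ∃ (C : IntermediateField ℚ (CyclotomicField p ℚ)) (_ : C →+* E), Module.finrank ℚ C = l := by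
  have : CharZero F := (algebraMap F E).charZero
  have : CharZero (AlgebraicClosure E) :=
    charZero_of_injective_algebraMap (algebraMap E (AlgebraicClosure E)).injective
  have : IsGalois E (AlgebraicClosure E) := isGalois_closure
  have : NeZero p := ⟨hp.ne_zero⟩
  have hcyc : IsCyclotomicExtension {p} ℚ (CyclotomicField p ℚ) :=
    CyclotomicField.isCyclotomicExtension p ℚ
  have : FiniteDimensional ℚ (CyclotomicField p ℚ) :=
    IsCyclotomicExtension.finiteDimensional {p} ℚ _
  have hne : NeZero (p : AlgebraicClosure E) := ⟨by exact_mod_cast hp.ne_zero⟩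
  obtain ⟨ξ, hξ⟩ := HasEnoughRootsOfUnity.exists_primitiveRoot (AlgebraicClosure E) p
  obtain ⟨b, -, -, -, hact, -⟩ := exists_gauss_closure hl hp hlp hζ hpow K hζK hξ
  obtain ⟨C, hC⟩ := exists_subfield hl hp hlp
  let Φ : CyclotomicField p ℚ →ₐ[ℚ] AlgebraicClosure E := IsAlgClosed.lift
  have hmem : ∀ x : C, ∃ y : E, algebraMap E (AlgebraicClosure E) y = Φ x := by
    intro x
    have h1 : Φ x ∈ (⊥ : IntermediateField E (AlgebraicClosure E)) := by
      rw [InfiniteGalois.mem_bot_iff_fixed]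
      intro h
      obtain ⟨a, -, ha⟩ := hξ.eq_pow_of_pow_eq_one (ξ := h ξ)
        (by rw [← map_pow, hξ.pow_eq_one, map_one])
      have h2 := (hact (h.restrictScalars F) (fun y _ => h.commutes y) a ha.symm).1 (h.commutes b)
      exact (core_cyc hl hp hlp (Φ : CyclotomicField p ℚ →+* AlgebraicClosure E) C hC
        (h : AlgebraicClosure E →+* AlgebraicClosure E) hξ ha.symm).2 h2 x
    rw [IntermediateField.mem_bot] at h1
    exact h1
  choose f hf using hmem
  have hinj := (algebraMap E (AlgebraicClosure E)).injective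
  refine ⟨C, ⟨⟨⟨f, ?_⟩, ?_⟩, ?_, ?_⟩, hC⟩
  · apply hinj; rw [hf]; simp
  · intro x y; apply hinj; rw [map_mul, hf, hf, hf]; simp
  · apply hinj
    change algebraMap E (AlgebraicClosure E) (f 0) = _
    rw [hf]; simp
  · intro x y
    apply hinj
    change algebraMap E (AlgebraicClosure E) (f (x + y)) = algebraMap E (AlgebraicClosure E) (f x + f y)
    rw [map_add, hf, hf, hf]; simp

omit [IsGalois F E] in
theorem fixes_iff {l p : ℕ} (hl : l.Prime) (hp : p.Prime) (hlp : l ∣ p - 1)
    {C : IntermediateField ℚ (CyclotomicField p ℚ)} (f : C →+* E)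
    (hC : Module.finrank ℚ C = l) (g : E ≃ₐ[F] E)
    (G : AlgebraicClosure E ≃ₐ[F] AlgebraicClosure E)
    (hG : ∀ x : E, G (algebraMap E _ x) = algebraMap E _ (g x)) {ξ : AlgebraicClosure E}
    (hξ : IsPrimitiveRoot ξ p) {a : ℕ} (ha : G ξ = ξ ^ a) :
    (∀ x : C, g (f x) = f x) ↔ a ^ ((p - 1) / l) ≡ 1 [MOD p] := by
  have : CharZero (AlgebraicClosure E) :=
    charZero_of_injective_algebraMap (algebraMap E (AlgebraicClosure E)).injective
  have hinj := (algebraMap E (AlgebraicClosure E)).injective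
  obtain ⟨Φ, hΦ⟩ := exists_extend hp (algebraMap E (AlgebraicClosure E)) C f
  rw [← core_cyc hl hp hlp Φ C hC (G : AlgebraicClosure E →+* AlgebraicClosure E) hξ ha]
  refine forall_congr' fun x => ?_
  rw [hΦ]
  change _ ↔ G (algebraMap E _ (f x)) = _
  rw [hG, hinj.eq_iff]

/-- It is enough to test one embedding of one subfield. -/
theorem trivialOn_iff_fixes {l p : ℕ} (hl : l.Prime) (hp : p.Prime) (hlp : l ∣ p - 1)
    {C : IntermediateField ℚ (CyclotomicField p ℚ)} (f : C →+* E)
    (hC : Module.finrank ℚ C = l) (g : E ≃ₐ[F] E) :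
    TrivialOn l p g ↔ ∀ x : C, g (f x) = f x := by
  refine ⟨fun h => h C f hC, fun h C' f' hC' => ?_⟩
  have : CharZero F := (algebraMap F E).charZero
  have : CharZero (AlgebraicClosure E) :=
    charZero_of_injective_algebraMap (algebraMap E (AlgebraicClosure E)).injective
  have : IsGalois F (AlgebraicClosure E) := isGalois_closure
  have : NeZero p := ⟨hp.ne_zero⟩
  have hne : NeZero (p : AlgebraicClosure E) := ⟨by exact_mod_cast hp.ne_zero⟩
  obtain ⟨ξ, hξ⟩ := HasEnoughRootsOfUnity.exists_primitiveRoot (AlgebraicClosure E) p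
  let G : AlgebraicClosure E ≃ₐ[F] AlgebraicClosure E := g.liftNormal (AlgebraicClosure E)
  have hG : ∀ x : E, G (algebraMap E _ x) = algebraMap E _ (g x) :=
    fun x => g.liftNormal_commutes (AlgebraicClosure E) x
  obtain ⟨a, -, ha⟩ := hξ.eq_pow_of_pow_eq_one (ξ := G ξ)
    (by rw [← map_pow, hξ.pow_eq_one, map_one])
  exact (fixes_iff hl hp hlp f' hC' g G hG hξ ha.symm).2
    ((fixes_iff hl hp hlp f hC g G hG hξ ha.symm).1 h)

/-- `TrivialOn` in terms of an extension to the algebraic closure. -/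
theorem trivialOn_iff {l p : ℕ} (hl : l.Prime) (hp : p.Prime) (hlp : l ∣ p - 1)
    (hC : ∃ (C : IntermediateField ℚ (CyclotomicField p ℚ)) (_ : C →+* E),
      Module.finrank ℚ C = l) (g : E ≃ₐ[F] E)
    (G : AlgebraicClosure E ≃ₐ[F] AlgebraicClosure E)
    (hG : ∀ x : E, G (algebraMap E _ x) = algebraMap E _ (g x)) {ξ : AlgebraicClosure E}
    (hξ : IsPrimitiveRoot ξ p) {a : ℕ} (ha : G ξ = ξ ^ a) :
    TrivialOn l p g ↔ a ^ ((p - 1) / l) ≡ 1 [MOD p] := by
  obtain ⟨C, f, hC⟩ := hC
  rw [trivialOn_iff_fixes hl hp hlp f hC, fixes_iff hl hp hlp f hC g G hG hξ ha]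

/-- `TrivialOn` for fields which contain the `p`-th roots of unity. -/
theorem trivialOn_iff_of_root {l p : ℕ} (hl : l.Prime) (hp : p.Prime) (hlp : l ∣ p - 1)
    (hC : ∃ (C : IntermediateField ℚ (CyclotomicField p ℚ)) (_ : C →+* E),
      Module.finrank ℚ C = l) (g : E ≃ₐ[F] E) {ξ : E} (hξ : IsPrimitiveRoot ξ p) {a : ℕ}
    (ha : g ξ = ξ ^ a) : TrivialOn l p g ↔ a ^ ((p - 1) / l) ≡ 1 [MOD p] := by
  have : CharZero F := (algebraMap F E).charZero
  have : IsGalois F (AlgebraicClosure E) := isGalois_closure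
  have hG : ∀ x : E, g.liftNormal (AlgebraicClosure E) (algebraMap E _ x) =
      algebraMap E _ (g x) := fun x => g.liftNormal_commutes (AlgebraicClosure E) x
  have hξ' : IsPrimitiveRoot (algebraMap E (AlgebraicClosure E) ξ) p :=
    hξ.map_of_injective (algebraMap E (AlgebraicClosure E)).injective
  exact trivialOn_iff hl hp hlp hC g (g.liftNormal (AlgebraicClosure E)) hG hξ'
    (by rw [hG, ha, map_pow])

/-- The Gauss sum for the subfield of degree `l`. -/
theorem exists_gauss {l p : ℕ} (hl : l.Prime) (hp : p.Prime) (hlp : l ∣ p - 1)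
    {ζ : E} (hζ : IsPrimitiveRoot ζ l) (hpow : ∀ x : E, ∃ y : E, y ^ l = x)
    (K : IntermediateField F E) [NumberField K] (hζK : ζ ∈ K) :
    ∃ (b : E) (x : K), b ≠ 0 ∧ b ^ l = (x : E) ∧
      (∀ g : E ≃ₐ[F] E, (∀ y ∈ K, g y = y) → (g b = b ↔ TrivialOn l p g)) ∧
      (∀ w : HeightOneSpectrum (𝓞 K), w.valuation K (p : K) = WithZero.exp (-1 : ℤ) →
        ¬ DvdVal w l x) ∧
      (∀ w : HeightOneSpectrum (𝓞 K), (p : 𝓞 K) ∉ w.asIdeal → DvdVal w l x) := by
  have : CharZero F := (algebraMap F E).charZero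
  have : CharZero (AlgebraicClosure E) :=
    charZero_of_injective_algebraMap (algebraMap E (AlgebraicClosure E)).injective
  have : IsGalois F (AlgebraicClosure E) := isGalois_closure
  have : NeZero p := ⟨hp.ne_zero⟩
  have hne : NeZero (p : AlgebraicClosure E) := ⟨by exact_mod_cast hp.ne_zero⟩
  obtain ⟨ξ, hξ⟩ := HasEnoughRootsOfUnity.exists_primitiveRoot (AlgebraicClosure E) p
  have hC := exists_subfield_embedding hl hp hlp hζ hpow K hζK
  obtain ⟨b, x, hb0, hb, hact, hv1, hv2⟩ := exists_gauss_closure hl hp hlp hζ hpow K hζK hξ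
  refine ⟨b, x, hb0, hb, ?_, hv1, hv2⟩
  intro g hg
  let G : AlgebraicClosure E ≃ₐ[F] AlgebraicClosure E := g.liftNormal (AlgebraicClosure E)
  have hG : ∀ x : E, G (algebraMap E _ x) = algebraMap E _ (g x) :=
    fun x => g.liftNormal_commutes (AlgebraicClosure E) x
  obtain ⟨a, -, ha⟩ := hξ.eq_pow_of_pow_eq_one (ξ := G ξ)
    (by rw [← map_pow, hξ.pow_eq_one, map_one])
  rw [trivialOn_iff hl hp hlp hC g G hG hξ ha.symm,
    ← hact G (fun y hy => by rw [hG, hg y hy]) a ha.symm, hG,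
    (algebraMap E (AlgebraicClosure E)).injective.eq_iff]

end Gauss

end Vale.Agent.P024.H358
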