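import Vale.Agent.P024.H358.Steps

/-!
The main theorem for fields closed under the extraction of `l`-th roots.
-/

namespace Vale.Agent.P024.H358

open scoped NumberField Topology
open IsDedekindDomain Filter IntermediateField

theorem isKummerClosed_of_solvablyClosed {E : Type*} [Field E] [CharZero E]
    (h : IsSolvablyClosed E) {l : ℕ} (hl : 0 < l) : IsKummerClosed l E := by
  have hs := Vale.Agent.P024.solvablyClosed_of_isAbelianGalois h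
  exact ⟨hs.exists_primitiveRoot l hl, hs.exists_root l hl⟩

theorem roots_of_solvablyClosed {E : Type*} [Field E] [CharZero E]
    (h : IsSolvablyClosed E) (n : ℕ) (hn : 0 < n) : ∃ z : E, IsPrimitiveRoot z n :=
  (Vale.Agent.P024.solvablyClosed_of_isAbelianGalois h).exists_primitiveRoot n hn

theorem IsKummerClosed.exists_pow_root {E : Type*} [Field E] {l : ℕ} (hl : l.Prime)
    (h : IsKummerClosed l E) (n : ℕ) : ∃ z : E, IsPrimitiveRoot z (l ^ n) := by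
  have : Fact l.Prime := ⟨hl⟩
  obtain ⟨⟨ζ, hζ⟩, hpow⟩ := h
  rcases n with _ | n
  · exact ⟨1, by rw [pow_zero]; exact IsPrimitiveRoot.one⟩
  induction n with
  | zero => exact ⟨ζ, by simpa using hζ⟩
  | succ n ih =>
    obtain ⟨z, hz⟩ := ih
    obtain ⟨y, hy⟩ := hpow z
    refine ⟨y, ?_⟩
    rw [IsPrimitiveRoot.iff_orderOf]
    apply orderOf_eq_prime_pow
    · rw [pow_succ', pow_mul, hy]
      intro h1
      have h2 := hz.dvd_of_pow_eq_one _ h1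
      have h3 := Nat.le_of_dvd (pow_pos hl.pos n) h2
      have h4 : l ^ n < l ^ (n + 1) := Nat.pow_lt_pow_right hl.one_lt (Nat.lt_succ_self n)
      omega
    · rw [pow_succ', pow_mul, hy]
      exact hz.pow_eq_one

theorem meetsSplit_of_ample {Q : Set ℕ} (hQ : Ample Q) : Vale.Agent.P024.MeetsSplit Q :=
  Vale.Agent.P024.meetsSplit_of_ringHom hQ

theorem ample_compl {B : Set ℕ} (hB : DensityZero B) : Ample Bᶜ := by
  intro Z _ _ _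
  obtain ⟨δ, hδ, h⟩ := Vale.Agent.P024.frequently_norm_compl Z B hB
  rw [Vale.Agent.P024.normPrimes_eq] at h
  exact ⟨δ, hδ, h⟩

theorem ample_univ : Ample Set.univ := by
  have := ample_compl (B := ∅) Vale.Agent.P024.tendsto_empty
  rwa [Set.compl_empty] at this

theorem exists_subfield_embedding' {F E : Type*} [Field F] [NumberField F] [Field E] [Algebra F E]
    [IsGalois F E] {l p : ℕ} (hl : l.Prime) (h : IsKummerClosed l E) (hp : p.Prime)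
    (hlp : l ∣ p - 1) :
    ∃ (C : IntermediateField ℚ (CyclotomicField p ℚ)) (_ : C →+* E), Module.finrank ℚ C = l := by
  have : CharZero E := charZero_of_injective_algebraMap (algebraMap F E).injective
  obtain ⟨⟨ζ, hζ⟩, hpow⟩ := h
  have : FiniteDimensional F F⟮ζ⟯ := adjoin.finiteDimensional (Algebra.IsIntegral.isIntegral ζ)
  have : NumberField F⟮ζ⟯ := NumberField.of_module_finite F F⟮ζ⟯
  exact exists_subfield_embedding hl hp hlp hζ hpow F⟮ζ⟯ (mem_adjoin_simple_self F ζ)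

section

variable {F₁ E₁ F₂ E₂ : Type*} [Field F₁] [NumberField F₁] [Field E₁]
    [Algebra F₁ E₁] [IsGalois F₁ E₁] [Field F₂] [NumberField F₂] [Field E₂] [Algebra F₂ E₂]
    [IsGalois F₂ E₂]

omit [NumberField F₁] [IsGalois F₁ E₁] [NumberField F₂] [IsGalois F₂ E₂] in
theorem compatible_of_induces (α : (E₁ ≃ₐ[F₁] E₁) →* (E₂ ≃ₐ[F₂] E₂)) (j : E₂ →+* E₁)
    (hj : Induces α j) : CyclotomicCompatible α := by
  intro g n k hn hg z hz
  apply j.injective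
  rw [← hj g z, map_pow]
  exact hg (j z) (by rw [← map_pow, hz, map_one])

theorem existsUnique_of_kummer {l : ℕ} (hl : l.Prime) (h₁ : IsKummerClosed l E₁)
    (h₂ : IsKummerClosed l E₂) (α : (E₁ ≃ₐ[F₁] E₁) →* (E₂ ≃ₐ[F₂] E₂))
    (h : ∃ j : E₂ →+* E₁, Induces α j) : ∃! j : E₂ →+* E₁, Induces α j := by
  obtain ⟨j, hj⟩ := h
  obtain ⟨ζ, hζ⟩ := h₁.1
  exact ⟨j, hj, fun j' hj' => Vale.Agent.P024.unique_of_induces α hl h₁.2 h₂.2 hζ j' j hj' hj⟩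

/-- the forward condition -/
theorem induced_of_forward {l : ℕ} (hl : l.Prime) (hl2 : l ≠ 2) (h₁ : IsKummerClosed l E₁)
    (h₂ : IsKummerClosed l E₂) (α : (E₁ ≃ₐ[F₁] E₁) →* (E₂ ≃ₐ[F₂] E₂)) (hα : Continuous α)
    {Q : Set ℕ} (hQ : Ample Q) (U : Subgroup (E₁ ≃ₐ[F₁] E₁))
    (hU : IsOpen (U : Set (E₁ ≃ₐ[F₁] E₁)))
    (h : ∀ p ∈ Q, p.Prime → p ≡ 1 [MOD l] → ∀ g ∈ U, TrivialOn l p (α g) →
      TrivialOn l p g) : ∃ j : E₂ →+* E₁, Induces α j := by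
  obtain ⟨ζ₁, hζ₁⟩ := h₁.1
  exact Vale.Agent.P024.glue396 hl h₁.2 h₂.2 hζ₁
    (fun K₂ hK₂ => core_rev α hα hl hl2 h₁.2 h₂.2 (h₁.exists_pow_root hl) (h₂.exists_pow_root hl)
      U hU Q (meetsSplit_of_ample hQ) (fun p hp hpQ hlp g hg => h p hpQ hp
        ((Nat.modEq_iff_dvd' hp.one_le).2 hlp).symm g hg) K₂ hK₂)

/-- the backward condition -/
theorem induced_of_backward {l : ℕ} (hl : l.Prime) (hl2 : l ≠ 2) (h₁ : IsKummerClosed l E₁)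
    (h₂ : IsKummerClosed l E₂) (α : (E₁ ≃ₐ[F₁] E₁) →* (E₂ ≃ₐ[F₂] E₂)) (hα : Continuous α)
    (hopen : IsOpen (Set.range α))
    {Q : Set ℕ} (hQ : Ample Q) (U : Subgroup (E₁ ≃ₐ[F₁] E₁))
    (hU : IsOpen (U : Set (E₁ ≃ₐ[F₁] E₁)))
    (h : ∀ p ∈ Q, p.Prime → p ≡ 1 [MOD l] → ∀ g ∈ U, TrivialOn l p g →
      TrivialOn l p (α g)) : ∃ j : E₂ →+* E₁, Induces α j := by
  obtain ⟨ζ₁, hζ₁⟩ := h₁.1
  exact Vale.Agent.P024.glue396 hl h₁.2 h₂.2 hζ₁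
    (fun K₂ hK₂ => core_fwd α hα hopen hl hl2 h₁.2 h₂.2 (h₁.exists_pow_root hl)
      (h₂.exists_pow_root hl) U hU Q (meetsSplit_of_ample hQ) (fun p hp hpQ hlp g hg => h p hpQ hp
        ((Nat.modEq_iff_dvd' hp.one_le).2 hlp).symm g hg) K₂ hK₂)

theorem trivialOn_iff_of_induces {l : ℕ} (hl : l.Prime) 
    (h₂ : IsKummerClosed l E₂) (α : (E₁ ≃ₐ[F₁] E₁) →* (E₂ ≃ₐ[F₂] E₂)) (j : E₂ →+* E₁)
    (hj : Induces α j) {p : ℕ} (hp : p.Prime) (hpl : p ≡ 1 [MOD l]) (g : E₁ ≃ₐ[F₁] E₁) :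
    TrivialOn l p g ↔ TrivialOn l p (α g) := by
  have : CharZero E₁ := charZero_of_injective_algebraMap (algebraMap F₁ E₁).injective
  have : CharZero E₂ := charZero_of_injective_algebraMap (algebraMap F₂ E₂).injective
  have hlp : l ∣ p - 1 := (Nat.modEq_iff_dvd' hp.one_le).1 hpl.symm
  obtain ⟨C, f, hC⟩ := exists_subfield_embedding' (F := F₂) hl h₂ hp hlp
  rw [trivialOn_iff_fixes hl hp hlp f hC, trivialOn_iff_fixes hl hp hlp (j.comp f) hC]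
  refine forall_congr' fun x => ?_
  rw [RingHom.comp_apply, hj g (f x), j.injective.eq_iff]

/-- The main theorem for fields closed under the extraction of `l`-th roots. -/
theorem kummer_main {l : ℕ} (hl : l.Prime) (hl2 : l ≠ 2) (h₁ : IsKummerClosed l E₁)
    (h₂ : IsKummerClosed l E₂) (α : (E₁ ≃ₐ[F₁] E₁) →* (E₂ ≃ₐ[F₂] E₂)) (hα : Continuous α)
    {Q : Set ℕ} (hQ : Ample Q) :
    List.TFAE [
      ∃! j : E₂ →+* E₁, Induces α j,
      ∀ p : ℕ, p.Prime → p ≡ 1 [MOD l] → ∀ g, (TrivialOn l p g ↔ TrivialOn l p (α g)),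
      ∃ U : Subgroup (E₁ ≃ₐ[F₁] E₁), IsOpen (U : Set (E₁ ≃ₐ[F₁] E₁)) ∧
        ∀ p ∈ Q, p.Prime → p ≡ 1 [MOD l] → ∀ g ∈ U, TrivialOn l p (α g) → TrivialOn l p g,
      IsOpen (Set.range α) ∧ ∃ U : Subgroup (E₁ ≃ₐ[F₁] E₁), IsOpen (U : Set (E₁ ≃ₐ[F₁] E₁)) ∧
        ∀ p ∈ Q, p.Prime → p ≡ 1 [MOD l] → ∀ g ∈ U, TrivialOn l p g → TrivialOn l p (α g)] := by
  tfae_have 1 → 2 := fun ⟨j, hj, _⟩ p hp hpl g => trivialOn_iff_of_induces hl h₂ α j hj hp hpl g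
  tfae_have 2 → 3 := fun h => ⟨⊤, isOpen_univ, fun p _ hp hpl g _ => (h p hp hpl g).2⟩
  tfae_have 3 → 1 := by
    rintro ⟨U, hU, h⟩
    exact existsUnique_of_kummer hl h₁ h₂ α (induced_of_forward hl hl2 h₁ h₂ α hα hQ U hU h)
  tfae_have 1 → 4 := by
    rintro ⟨j, hj, -⟩
    exact ⟨Vale.Agent.P024.isOpen_range_of_induces α hα j hj, ⊤, isOpen_univ,
      fun p _ hp hpl g _ => (trivialOn_iff_of_induces hl h₂ α j hj hp hpl g).1⟩
  tfae_have 4 → 1 := by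
    rintro ⟨hopen, U, hU, h⟩
    exact existsUnique_of_kummer hl h₁ h₂ α
      (induced_of_backward hl hl2 h₁ h₂ α hα hopen hQ U hU h)
  tfae_finish

/-- agreement up to order prime to `l` implies the forward condition -/
theorem forward_of_agree {l N p : ℕ} (hl : l.Prime) (hN : N.Coprime l)
    (h₁ : IsKummerClosed l E₁) (h₂ : IsKummerClosed l E₂)
    (hr₁ : ∃ z : E₁, IsPrimitiveRoot z p) (hr₂ : ∃ z : E₂, IsPrimitiveRoot z p)
    (α : (E₁ ≃ₐ[F₁] E₁) →* (E₂ ≃ₐ[F₂] E₂)) (hp : p.Prime)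
    (hpl : p ≡ 1 [MOD l]) (g : E₁ ≃ₐ[F₁] E₁) (h : AgreeUpTo α N p g)
    (hg : TrivialOn l p (α g)) : TrivialOn l p g := by
  have : CharZero E₁ := charZero_of_injective_algebraMap (algebraMap F₁ E₁).injective
  have : CharZero E₂ := charZero_of_injective_algebraMap (algebraMap F₂ E₂).injective
  have : NeZero p := ⟨hp.ne_zero⟩
  have hlp : l ∣ p - 1 := (Nat.modEq_iff_dvd' hp.one_le).1 hpl.symm
  obtain ⟨ξ₁, hξ₁⟩ := hr₁
  obtain ⟨ξ₂, hξ₂⟩ := hr₂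
  have hC₁ := exists_subfield_embedding' (F := F₁) hl h₁ hp hlp
  have hC₂ := exists_subfield_embedding' (F := F₂) hl h₂ hp hlp
  obtain ⟨a, -, ha⟩ := hξ₁.eq_pow_of_pow_eq_one (ξ := g ξ₁)
    (by rw [← map_pow, hξ₁.pow_eq_one, map_one])
  obtain ⟨b, -, hb⟩ := hξ₂.eq_pow_of_pow_eq_one (ξ := α g ξ₂)
    (by rw [← map_pow, hξ₂.pow_eq_one, map_one])
  have hb1 := (trivialOn_iff_of_root hl hp hlp hC₂ (α g) hξ₂ hb.symm).1 hg
  refine (trivialOn_iff_of_root hl hp hlp hC₁ g hξ₁ ha.symm).2 ?_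
  have hac : a.Coprime p := by
    have h2 : IsPrimitiveRoot (g ξ₁) p := hξ₁.map_of_injective g.injective
    rw [← ha] at h2
    exact (hξ₁.pow_iff_coprime hp.pos a).1 h2
  have hab : a ^ N ≡ b ^ N [MOD p] := by
    refine h a b ?_ ?_
    · intro z hz
      obtain ⟨i, -, rfl⟩ := hξ₁.eq_pow_of_pow_eq_one hz
      rw [map_pow, ← ha, ← pow_mul, ← pow_mul, mul_comm]
    · intro z hz
      obtain ⟨i, -, rfl⟩ := hξ₂.eq_pow_of_pow_eq_one hz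
      rw [map_pow, ← hb, ← pow_mul, ← pow_mul, mul_comm]
  have h3 : (a ^ ((p - 1) / l)) ^ N ≡ 1 [MOD p] := by
    calc (a ^ ((p - 1) / l)) ^ N = (a ^ N) ^ ((p - 1) / l) := by ring
      _ ≡ (b ^ N) ^ ((p - 1) / l) [MOD p] := hab.pow _
      _ = (b ^ ((p - 1) / l)) ^ N := by ring
      _ ≡ 1 ^ N [MOD p] := hb1.pow N
      _ = 1 := one_pow N
  have h4 : (a ^ ((p - 1) / l)) ^ l ≡ 1 [MOD p] := by
    have h5 := Nat.ModEq.pow_totient hac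
    rw [Nat.totient_prime hp] at h5
    rwa [← pow_mul, Nat.div_mul_cancel hlp]
  rw [← ZMod.natCast_eq_natCast_iff] at h3 h4 ⊢
  push_cast at h3 h4 ⊢
  have h6 := pow_gcd_eq_one.2 ⟨h3, h4⟩
  rwa [show N.gcd l = 1 from hN, pow_one] at h6

omit [NumberField F₁] [IsGalois F₁ E₁] [NumberField F₂] [IsGalois F₂ E₂] in
theorem agree_of_compatible {p : ℕ} (hr₂ : ∃ z : E₂, IsPrimitiveRoot z p)
    (α : (E₁ ≃ₐ[F₁] E₁) →* (E₂ ≃ₐ[F₂] E₂)) (h : CyclotomicCompatible α) (hp : p.Prime)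
    (g : E₁ ≃ₐ[F₁] E₁) (N : ℕ) : AgreeUpTo α N p g := by
  intro a b ha hb
  obtain ⟨ξ₂, hξ₂⟩ := hr₂
  refine Nat.ModEq.pow N ((Vale.Agent.P024.pow_eq_pow_iff_modEq' hξ₂ hp.pos).1 ?_)
  rw [← hb ξ₂ hξ₂.pow_eq_one, ← h g p a hp.pos ha ξ₂ hξ₂.pow_eq_one]

/-- Fields which contain all roots of unity. -/
theorem roots_main {l : ℕ} (hl : l.Prime) (hl2 : l ≠ 2) (h₁ : IsKummerClosed l E₁)
    (h₂ : IsKummerClosed l E₂) (hr₁ : ∀ n : ℕ, 0 < n → ∃ z : E₁, IsPrimitiveRoot z n)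
    (hr₂ : ∀ n : ℕ, 0 < n → ∃ z : E₂, IsPrimitiveRoot z n)
    (α : (E₁ ≃ₐ[F₁] E₁) →* (E₂ ≃ₐ[F₂] E₂)) (hα : Continuous α)
    {Q : Set ℕ} (hQ : Ample Q) :
    List.TFAE [
      ∃! j : E₂ →+* E₁, Induces α j,
      CyclotomicCompatible α,
      ∃ U : Subgroup (E₁ ≃ₐ[F₁] E₁), IsOpen (U : Set (E₁ ≃ₐ[F₁] E₁)) ∧
        ∀ p ∈ Q, p.Prime → p ≡ 1 [MOD l] → ∃ N : ℕ, N.Coprime l ∧ ∀ g ∈ U, AgreeUpTo α N p g] ∧
      (CyclotomicCompatible α → IsOpen (Set.range α)) := by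
  have h21 : (∃ U : Subgroup (E₁ ≃ₐ[F₁] E₁), IsOpen (U : Set (E₁ ≃ₐ[F₁] E₁)) ∧
        ∀ p ∈ Q, p.Prime → p ≡ 1 [MOD l] → ∃ N : ℕ, N.Coprime l ∧ ∀ g ∈ U, AgreeUpTo α N p g) →
      ∃! j : E₂ →+* E₁, Induces α j := by
    rintro ⟨U, hU, h⟩
    refine existsUnique_of_kummer hl h₁ h₂ α
      (induced_of_forward hl hl2 h₁ h₂ α hα hQ U hU fun p hpQ hp hpl g hg => ?_)
    obtain ⟨N, hN, h'⟩ := h p hpQ hp hpl
    exact forward_of_agree hl hN h₁ h₂ (hr₁ p hp.pos) (hr₂ p hp.pos) α hp hpl g (h' g hg)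
  have h23 : CyclotomicCompatible α → ∃ U : Subgroup (E₁ ≃ₐ[F₁] E₁),
      IsOpen (U : Set (E₁ ≃ₐ[F₁] E₁)) ∧ ∀ p ∈ Q, p.Prime → p ≡ 1 [MOD l] →
        ∃ N : ℕ, N.Coprime l ∧ ∀ g ∈ U, AgreeUpTo α N p g := fun h =>
    ⟨⊤, isOpen_univ, fun p _ hp _ => ⟨1, Nat.coprime_one_left l,
      fun g _ => agree_of_compatible (hr₂ p hp.pos) α h hp g 1⟩⟩
  refine ⟨?_, fun h => ?_⟩
  · tfae_have 1 → 2 := fun ⟨j, hj, _⟩ => compatible_of_induces α j hj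
    tfae_have 2 → 3 := h23
    tfae_have 3 → 1 := h21
    tfae_finish
  · obtain ⟨j, hj, -⟩ := h21 (h23 h)
    exact Vale.Agent.P024.isOpen_range_of_induces α hα j hj

end

end Vale.Agent.P024.H358
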