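import Vale.Agent.P024.Bdl.B2
import Mathlib.GroupTheory.FiniteAbelian.Duality
import Mathlib.FieldTheory.AbelRuffini

/-!
Fields closed under roots are solvably closed.
-/

namespace Vale.Agent.P024.H358.Red

open Polynomial

/-- A field of characteristic zero which contains all roots of unity and is closed under roots has
no nontrivial abelian extension. -/
theorem solvablyClosed_of_root {E : Type*} [Field E] [CharZero E]
    (hr : ∀ n : ℕ, 0 < n → ∃ z : E, IsPrimitiveRoot z n)
    (hp : ∀ n : ℕ, 0 < n → ∀ x : E, ∃ y : E, y ^ n = x) : SolvablyClosed E := by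
  classical
  intro M hM hcomm
  rw [eq_bot_iff]
  intro x hx
  by_contra hxb
  set x' : M := ⟨x, hx⟩ with hx'
  let N : IntermediateField E M := IntermediateField.normalClosure E
    (IntermediateField.adjoin E {x'}) M
  have hint : IsIntegral E x' := Algebra.IsIntegral.isIntegral x'
  have hfd0 : FiniteDimensional E (IntermediateField.adjoin E {x'}) :=
    IntermediateField.adjoin.finiteDimensional hint
  have hfd : FiniteDimensional E N := inferInstance
  have hnorm : Normal E N := inferInstance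
  have hgal : IsGalois E N := ⟨⟩
  have hxN : x' ∈ N := (IntermediateField.le_normalClosure _)
    (IntermediateField.subset_adjoin E {x'} rfl)
  set y : N := ⟨x', hxN⟩ with hy
  have hcommN : ∀ s t : N ≃ₐ[E] N, s * t = t * s := by
    intro s t
    obtain ⟨s', rfl⟩ := AlgEquiv.restrictNormalHom_surjective (F := E) (K₁ := N) (E := M) s
    obtain ⟨t', rfl⟩ := AlgEquiv.restrictNormalHom_surjective (F := E) (K₁ := N) (E := M) t
    rw [← map_mul, ← map_mul, hcomm]
  -- an automorphism moving `x`
  have hmove : ∃ g : N ≃ₐ[E] N, g y ≠ y := by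
    by_contra hcon
    push Not at hcon
    have h1 : y ∈ (⊥ : IntermediateField E N) := (IsGalois.mem_bot_iff_fixed y).2 hcon
    obtain ⟨c, hc⟩ := IntermediateField.mem_bot.1 h1
    apply hxb
    rw [IntermediateField.mem_bot]
    refine ⟨c, ?_⟩
    have h2 := congrArg (fun t : N => (((t : M) : M) : AlgebraicClosure E)) hc
    exact h2
  obtain ⟨g, hg⟩ := hmove
  have hg1 : g ≠ 1 := by
    rintro rfl
    exact hg rfl
  let _ : CommGroup (N ≃ₐ[E] N) := { (inferInstance : Group (N ≃ₐ[E] N)) with mul_comm := hcommN }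
  have hfin : Finite (N ≃ₐ[E] N) := inferInstance
  have hft : Fintype (N ≃ₐ[E] N) := Fintype.ofFinite _
  set n := Monoid.exponent (N ≃ₐ[E] N) with hn
  have hn0 : 0 < n := Monoid.ExponentExists.of_finite.exponent_pos
  have _ : NeZero n := ⟨hn0.ne'⟩
  have _ : HasEnoughRootsOfUnity E n := ⟨hr n hn0, rootsOfUnity.isCyclic _ _⟩
  obtain ⟨φ, hφ⟩ := CommGroup.exists_apply_ne_one_of_hasEnoughRootsOfUnity (N ≃ₐ[E] N) E hg1
  -- an eigenvector
  have hres : ∃ t : N, ∑ s : N ≃ₐ[E] N, algebraMap E N ((φ s⁻¹ : Eˣ) : E) * s t ≠ 0 := by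
    by_contra hcon
    push Not at hcon
    have hli : LinearIndependent N (fun s : N ≃ₐ[E] N => ((s : N →* N) : N → N)) :=
      (linearIndependent_monoidHom N N).comp (fun s : N ≃ₐ[E] N => (s : N →* N)) (by
        intro s t hst
        ext a
        have := DFunLike.congr_fun hst a
        exact congrArg (fun z : N => (((z : M) : M) : AlgebraicClosure E)) this)
    rw [Fintype.linearIndependent_iff] at hli
    have h1 := hli (fun s => algebraMap E N ((φ s⁻¹ : Eˣ) : E)) (by
      funext c
      rw [Finset.sum_apply]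
      simp only [Pi.smul_apply, smul_eq_mul, Pi.zero_apply]
      exact hcon c) 1
    rw [inv_one, map_one, Units.val_one, map_one] at h1
    exact one_ne_zero h1
  obtain ⟨t, ht⟩ := hres
  set b : N := ∑ s : N ≃ₐ[E] N, algebraMap E N ((φ s⁻¹ : Eˣ) : E) * s t with hb
  have hsb : ∀ s : N ≃ₐ[E] N, s b = algebraMap E N ((φ s : Eˣ) : E) * b := by
    intro s
    rw [hb, map_sum, Finset.mul_sum]
    refine Fintype.sum_equiv (Equiv.mulLeft s) _ _ fun u => ?_
    rw [map_mul, AlgEquiv.commutes, Equiv.coe_mulLeft, AlgEquiv.mul_apply, ← mul_assoc,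
      ← map_mul, ← Units.val_mul, ← map_mul]
    congr 4
    rw [mul_inv_rev, mul_comm u⁻¹, mul_inv_cancel_left]
  have hbn : ∀ s : N ≃ₐ[E] N, s (b ^ n) = b ^ n := by
    intro s
    rw [map_pow, hsb, mul_pow, ← map_pow, ← Units.val_pow_eq_pow_val, ← map_pow,
      Monoid.pow_exponent_eq_one, map_one, Units.val_one, map_one, one_mul]
  obtain ⟨c, hc⟩ := IntermediateField.mem_bot.1 ((IsGalois.mem_bot_iff_fixed (b ^ n)).2 hbn)
  obtain ⟨d, hd⟩ := hp n hn0 c
  obtain ⟨ζ, hζ⟩ := hr n hn0
  have hd0 : algebraMap E N d ≠ 0 := by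
    intro h0
    apply ht
    have h1 : b ^ n = 0 := by
      rw [← hc, ← hd, map_pow, h0, zero_pow hn0.ne']
    exact pow_eq_zero_iff hn0.ne' |>.1 h1
  have hζN : IsPrimitiveRoot (algebraMap E N ζ) n :=
    hζ.map_of_injective (algebraMap E N).injective
  obtain ⟨i, -, hi⟩ := hζN.eq_pow_of_pow_eq_one (ξ := b / algebraMap E N d) (by
    rw [div_pow, ← hc, ← hd, map_pow]
    exact div_self (pow_ne_zero n hd0))
  have hbE : b = algebraMap E N (ζ ^ i * d) := by
    rw [map_mul, map_pow, hi, div_mul_cancel₀ _ hd0]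
  apply hφ
  have h1 := hsb g
  rw [hbE, AlgEquiv.commutes] at h1
  have h2 : algebraMap E N (ζ ^ i * d) ≠ 0 := by rw [← hbE]; exact ht
  have h3 := mul_right_cancel₀ h2 ((one_mul _).trans h1)
  apply Units.ext
  rw [Units.val_one]
  exact ((algebraMap E N).injective (by rw [map_one]; exact h3)).symm

end Vale.Agent.P024.H358.Red
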