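import Vale.Agent.P024.H358.Red1

/-!
The maximal solvable extension of the rationals.
-/

namespace Vale.Agent.P024.H358.Red

open IntermediateField

section

variable (E : Type*) [Field E] [CharZero E]

/-- The elements of `E` which are solvable by radicals over `ℚ`. -/
noncomputable def QS : IntermediateField ℚ E :=
  (solvableByRad ℚ (AlgebraicClosure E)).comap (algebraMap E (AlgebraicClosure E)).toRatAlgHom

theorem mem_QS (x : E) : x ∈ QS E ↔ algebraMap E (AlgebraicClosure E) x ∈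
    solvableByRad ℚ (AlgebraicClosure E) := Iff.rfl

variable {E} 

theorem QS_le (hr : ∀ n : ℕ, 0 < n → ∃ z : E, IsPrimitiveRoot z n)
    (hp : ∀ n : ℕ, 0 < n → ∀ x : E, ∃ y : E, y ^ n = x) :
    ∀ y ∈ solvableByRad ℚ (AlgebraicClosure E), ∃ x ∈ QS E,
      algebraMap E (AlgebraicClosure E) x = y := by
  have h : solvableByRad ℚ (AlgebraicClosure E) ≤
      (algebraMap E (AlgebraicClosure E)).toRatAlgHom.fieldRange := by
    refine solvableByRad_le fun y n hn hy => ?_
    obtain ⟨x, hx⟩ := hy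
    obtain ⟨z, hz⟩ := hp n (Nat.pos_of_ne_zero hn) x
    obtain ⟨ζ, hζ⟩ := hr n (Nat.pos_of_ne_zero hn)
    have _ : NeZero n := ⟨hn⟩
    by_cases hy0 : y = 0
    · subst hy0
      exact zero_mem _
    have hx' : algebraMap E (AlgebraicClosure E) x = y ^ n := hx
    have hz0 : algebraMap E (AlgebraicClosure E) z ≠ 0 := by
      intro h0
      apply hy0
      have h1 : y ^ n = 0 := by
        rw [← hx', ← hz, map_pow, h0, zero_pow hn]
      exact (pow_eq_zero_iff hn).1 h1
    have hζ' : IsPrimitiveRoot (algebraMap E (AlgebraicClosure E) ζ) n :=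
      hζ.map_of_injective (algebraMap E (AlgebraicClosure E)).injective
    obtain ⟨i, -, hi⟩ := hζ'.eq_pow_of_pow_eq_one
      (ξ := y / algebraMap E (AlgebraicClosure E) z) (by
      rw [div_pow, ← hx', ← hz, map_pow]
      exact div_self (pow_ne_zero n hz0))
    refine ⟨ζ ^ i * z, ?_⟩
    show algebraMap E (AlgebraicClosure E) (ζ ^ i * z) = y
    rw [map_mul, map_pow, hi, div_mul_cancel₀ _ hz0]
  intro y hy
  obtain ⟨x, hx⟩ := h hy
  have hx' : algebraMap E (AlgebraicClosure E) x = y := hx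
  exact ⟨x, by rw [mem_QS, hx']; exact hy, hx'⟩

theorem map_solvableByRad {Ω : Type*} [Field Ω] [CharZero Ω] (s : Ω ≃ₐ[ℚ] Ω) :
    ∀ x ∈ solvableByRad ℚ Ω, s x ∈ solvableByRad ℚ Ω := by
  have h : solvableByRad ℚ Ω ≤ (solvableByRad ℚ Ω).comap (s : Ω →ₐ[ℚ] Ω) := by
    refine solvableByRad_le fun y n hn hy => ?_
    have hy' : s (y ^ n) ∈ solvableByRad ℚ Ω := hy
    rw [map_pow] at hy'
    exact solvableByRad.rad_mem hn hy'
  exact h

theorem normal_QS [Algebra.IsAlgebraic ℚ E] (hr : ∀ n : ℕ, 0 < n → ∃ z : E, IsPrimitiveRoot z n)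
    (hp : ∀ n : ℕ, 0 < n → ∀ x : E, ∃ y : E, y ^ n = x) : Normal ℚ (QS E) := by
  have halg : Algebra.IsAlgebraic ℚ (AlgebraicClosure E) :=
    Algebra.IsAlgebraic.trans ℚ E (AlgebraicClosure E)
  have hnorm : Normal ℚ (AlgebraicClosure E) := ⟨fun x => IsAlgClosed.splits _⟩
  have hR : Normal ℚ (solvableByRad ℚ (AlgebraicClosure E)) := by
    refine IntermediateField.normal_iff_forall_map_le'.2 ?_
    rintro s _ ⟨x, hx, rfl⟩
    exact map_solvableByRad s x hx
  let f : QS E →+* solvableByRad ℚ (AlgebraicClosure E) :=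
    ((algebraMap E (AlgebraicClosure E)).comp (algebraMap (QS E) E)).codRestrict
      (solvableByRad ℚ (AlgebraicClosure E)) fun x => x.2
  have hf : Function.Bijective f := by
    refine ⟨f.injective, fun y => ?_⟩
    obtain ⟨x, hx, hxy⟩ := QS_le hr hp y y.2
    exact ⟨⟨x, hx⟩, Subtype.ext hxy⟩
  exact Normal.of_algEquiv (AlgEquiv.ofBijective f.toRatAlgHom hf).symm

theorem isGalois_QS [Algebra.IsAlgebraic ℚ E] (hr : ∀ n : ℕ, 0 < n → ∃ z : E, IsPrimitiveRoot z n)
    (hp : ∀ n : ℕ, 0 < n → ∀ x : E, ∃ y : E, y ^ n = x) : IsGalois ℚ (QS E) := by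
  have := normal_QS hr hp
  exact ⟨⟩

theorem root_mem_QS (n : ℕ) (hn : 0 < n) (x : E) (hx : x ^ n ∈ QS E) : x ∈ QS E := by
  rw [mem_QS, map_pow] at hx
  exact solvableByRad.rad_mem hn.ne' hx

theorem solvablyClosed_QS (hr : ∀ n : ℕ, 0 < n → ∃ z : E, IsPrimitiveRoot z n)
    (hp : ∀ n : ℕ, 0 < n → ∀ x : E, ∃ y : E, y ^ n = x) : SolvablyClosed (QS E) := by
  refine solvablyClosed_of_root ?_ ?_
  · intro n hn
    obtain ⟨z, hz⟩ := hr n hn
    refine ⟨⟨z, root_mem_QS n hn z (by rw [hz.pow_eq_one]; exact one_mem _)⟩, ?_⟩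
    exact IsPrimitiveRoot.of_map_of_injective (f := algebraMap (QS E) E) hz
      (algebraMap (QS E) E).injective
  · intro n hn x
    obtain ⟨y, hy⟩ := hp n hn x
    exact ⟨⟨y, root_mem_QS n hn y (by rw [hy]; exact x.2)⟩, Subtype.ext hy⟩

/-- Restriction of automorphisms to the maximal solvable extension of the rationals. -/
noncomputable def resQ (F E : Type*) [Field F] [CharZero F] [Field E] [CharZero E] [Algebra F E]
    [Normal ℚ (QS E)] : (E ≃ₐ[F] E) →* (QS E ≃ₐ[ℚ] QS E) where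
  toFun g := (g.restrictScalars ℚ).restrictNormal (QS E)
  map_one' := by
    ext x
    exact AlgEquiv.restrictNormal_commutes ((1 : E ≃ₐ[F] E).restrictScalars ℚ) (QS E) x
  map_mul' g h := by
    ext x
    have h1 := AlgEquiv.restrictNormal_commutes ((g * h).restrictScalars ℚ) (QS E) x
    have h2 := AlgEquiv.restrictNormal_commutes (g.restrictScalars ℚ) (QS E)
      ((h.restrictScalars ℚ).restrictNormal (QS E) x)
    have h3 := AlgEquiv.restrictNormal_commutes (h.restrictScalars ℚ) (QS E) x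
    have h4 : g (algebraMap (QS E) E ((h.restrictScalars ℚ).restrictNormal (QS E) x)) =
        g (h (algebraMap (QS E) E x)) := congrArg g h3
    exact h1.trans (h4.symm.trans h2.symm)

theorem resQ_apply (F E : Type*) [Field F] [CharZero F] [Field E] [CharZero E] [Algebra F E]
    [Normal ℚ (QS E)] (g : E ≃ₐ[F] E) (x : QS E) : ((resQ F E g x : QS E) : E) = g x :=
  AlgEquiv.restrictNormal_commutes (g.restrictScalars ℚ) (QS E) x

end

end Vale.Agent.P024.H358.Red
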