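import Vale.Agent.P024.H358.Red3
import Vale.Agent.P024.ALL.Spec

/-!
The reduction of Uchida's conjecture to the maximal solvable extension of the rationals, for all
number fields.
-/

namespace Vale.Agent.P024.H358.Red

open IntermediateField
open scoped Topology

universe u v

theorem compat_of_goal (hM : ALL.PropGOAL.{u, v}) {F₁ F₂ : Type*} {E₁ : Type u} {E₂ : Type v}
    [Field F₁] [NumberField F₁] [Field E₁] [Algebra F₁ E₁]
    [IsGalois F₁ E₁] [Field F₂] [NumberField F₂] [Field E₂] [Algebra F₂ E₂] [IsGalois F₂ E₂]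
    (hE₁ : SolvablyClosed E₁) (hE₂ : SolvablyClosed E₂) (α : (E₁ ≃ₐ[F₁] E₁) →* (E₂ ≃ₐ[F₂] E₂))
    (hα : Continuous α) (hopen : IsOpen (Set.range α)) (g : E₁ ≃ₐ[F₁] E₁) (n k : ℕ) (hn : 0 < n)
    (hg : ∀ z : E₁, z ^ n = 1 → g z = z ^ k) (z : E₂) (hz : z ^ n = 1) : (α g) z = z ^ k := by
  have hc₁ : CharZero E₁ := charZero_of_injective_algebraMap (algebraMap F₁ E₁).injective
  have hc₂ : CharZero E₂ := charZero_of_injective_algebraMap (algebraMap F₂ E₂).injective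
  have halg₁ : Algebra.IsAlgebraic ℚ E₁ := Algebra.IsAlgebraic.trans ℚ F₁ E₁
  have halg₂ : Algebra.IsAlgebraic ℚ E₂ := Algebra.IsAlgebraic.trans ℚ F₂ E₂
  have halgΩ : Algebra.IsAlgebraic ℚ (AlgebraicClosure E₁) :=
    Algebra.IsAlgebraic.trans ℚ E₁ (AlgebraicClosure E₁)
  have hgal := isGalois_QS (E := E₂) (fun n hn => hE₂.exists_primitiveRoot n hn)
    (fun n hn x => hE₂.exists_root n hn x)
  have hNF : NumberField (im F₁ E₁) := NumberField.of_ringEquiv F₁ (im F₁ E₁) (imEquiv F₁ E₁)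
  have hres1 : Continuous (res1 F₁ E₁) :=
    continuous_of_res (algebraMap E₁ (AlgebraicClosure E₁)) (res1 F₁ E₁) (res1_apply F₁ E₁)
  have hresQ : Continuous (resQ F₂ E₂) :=
    continuous_of_res (algebraMap (QS E₂) E₂) (resQ F₂ E₂) (resQ_apply F₂ E₂)
  obtain ⟨j, hj⟩ := hM (AlgebraicClosure E₁) (QS E₂)
    (solvablyClosed_QS (fun n hn => hE₂.exists_primitiveRoot n hn)
      (fun n hn x => hE₂.exists_root n hn x)) (im F₁ E₁)
    (((resQ F₂ E₂).comp α).comp (res1 F₁ E₁)) ((hresQ.comp hα).comp hres1) (by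
      rw [MonoidHom.coe_comp, (res1_surjective F₁ E₁).range_comp]
      exact isOpen_range_resQ α hα hopen)
  obtain ⟨g', rfl⟩ := res1_surjective F₁ E₁ g
  set y : QS E₂ := ⟨z, root_mem_QS n hn z (by rw [hz]; exact one_mem _)⟩ with hy
  have hyn : y ^ n = 1 := Subtype.ext hz
  obtain ⟨ξ, hξ⟩ := hE₁.exists_primitiveRoot n hn
  have _ : NeZero n := ⟨hn.ne'⟩
  have hξ' : IsPrimitiveRoot (algebraMap E₁ (AlgebraicClosure E₁) ξ) n :=
    hξ.map_of_injective (algebraMap E₁ (AlgebraicClosure E₁)).injective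
  obtain ⟨i, -, hi⟩ := hξ'.eq_pow_of_pow_eq_one (ξ := j y) (by rw [← map_pow, hyn, map_one])
  have h1 : g' (j y) = (j y) ^ k := by
    rw [← hi, ← map_pow, ← res1_apply, hg (ξ ^ i) (by
      rw [← pow_mul, mul_comm, pow_mul, hξ.pow_eq_one, one_pow]), map_pow]
  rw [hj, ← map_pow] at h1
  have h2 := j.injective h1
  have h3 := congrArg (fun t : QS E₂ => (t : E₂)) h2
  have h4 := resQ_apply F₂ E₂ (α (res1 F₁ E₁ g')) y
  exact h4.symm.trans h3

end Vale.Agent.P024.H358.Red
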