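import Vale.Agent.P024.H358.Gauss

/-!
The local and global steps for fields which contain the `l`-th roots of unity and are closed under
the extraction of `l`-th roots.
-/

namespace Vale.Agent.P024.H358

open scoped NumberField
open IsDedekindDomain IntermediateField Vale.Agent.P024

section Asm

variable {F₁ E₁ F₂ E₂ : Type*} [Field F₁] [Field E₁] [Algebra F₁ E₁] [IsGalois F₁ E₁]
    [CharZero E₁] [Algebra.IsAlgebraic ℚ E₁]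
    [Field F₂] [Field E₂] [Algebra F₂ E₂] [IsGalois F₂ E₂]
    [CharZero E₂] [Algebra.IsAlgebraic ℚ E₂]

theorem local_matchL (α : (E₁ ≃ₐ[F₁] E₁) →* (E₂ ≃ₐ[F₂] E₂)) (hα : Continuous α)
    (K₁ : IntermediateField F₁ E₁) [NumberField K₁] (K₂ : IntermediateField F₂ E₂) [NumberField K₂]
    (hαK : ∀ g : E₁ ≃ₐ[F₁] E₁, (∀ x ∈ K₁, g x = x) → ∀ y ∈ K₂, α g y = y)
    {l : ℕ} (hl : l.Prime) (hl2 : l ≠ 2)
    (hpow₁ : ∀ x : E₁, ∃ y : E₁, y ^ l = x) (hpow₂ : ∀ x : E₂, ∃ y : E₂, y ^ l = x)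
    (hroot₂ : ∀ n : ℕ, ∃ ξ : E₂, IsPrimitiveRoot ξ (l ^ n))
    (z₁ : K₁) (hz₁ : IsPrimitiveRoot z₁ l) (z₂ : K₂) (hz₂ : IsPrimitiveRoot z₂ l)
    (hμ : ∃ ξ ∈ K₁, IsPrimitiveRoot ξ (l ^ 2))
    (hμ₂ : ∃ ξ ∈ K₂, IsPrimitiveRoot ξ (l ^ 2))
    (κ : K₂ → K₁) (hκ : IsTransfer α K₁ K₂ l (z₁ : E₁) (z₂ : E₂) κ)
    (v : HeightOneSpectrum (𝓞 K₁)) (hvl : (l : 𝓞 K₁) ∉ v.asIdeal) (x₀ : K₂) (hx₀ : x₀ ≠ 0)
    (hx₀v : ¬ DvdVal v l (κ x₀)) :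
    ∃ w : HeightOneSpectrum (𝓞 K₂), (l : 𝓞 K₂) ∉ w.asIdeal ∧
      (∀ x, x ≠ 0 → (DvdVal w l x ↔ DvdVal v l (κ x))) ∧
      (∀ x : K₂, w.valuation K₂ x = 1 →
        w.valuation K₂ (x ^ (Ideal.absNorm v.asIdeal - 1) - 1) < 1 →
        ∃ z : K₁, v.valuation K₁ (κ x * z ^ l) = 1 ∧ ∃ e : ℕ,
          v.valuation K₁ ((κ x * z ^ l) ^ ((Ideal.absNorm v.asIdeal - 1) / l) - z₁ ^ e) < 1 ∧
          w.valuation K₂ (x ^ ((Ideal.absNorm v.asIdeal - 1) / l) - z₂ ^ e) < 1) := by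
  have hl0 := hl.pos
  have : NeZero l := ⟨hl0.ne'⟩
  have hζ₁ : IsPrimitiveRoot (z₁ : E₁) l :=
    hz₁.map_of_injective (f := algebraMap K₁ E₁) (algebraMap K₁ E₁).injective
  have hζ₂ : IsPrimitiveRoot (z₂ : E₂) l :=
    hz₂.map_of_injective (f := algebraMap K₂ E₂) (algebraMap K₂ E₂).injective
  obtain ⟨b₀, hb₀⟩ := hpow₁ (κ x₀ : E₁)
  obtain ⟨O, s, t, hO, hOv, hsK, htK, hs, hs', ht, ht', htb⟩ :=
    exists_tame K₁ hl hζ₁ z₁.2 v hvl (κ x₀) (hκ.ne_zero x₀ hx₀) hx₀v b₀ hb₀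
  set q := Ideal.absNorm v.asIdeal with hq
  have hlO : ∀ n : ℕ, ((l ^ n : ℕ) : E₁) ∉ O.nonunits := by
    intro n
    apply natCast_notMem O v hOv
    rw [Nat.cast_pow]
    intro h
    exact hvl (v.isPrime.mem_of_pow_mem _ h)
  have hlO1 : (l : E₁) ∉ O.nonunits := by simpa using hlO 1
  -- the tame relation
  set δ₁ := s * t * s⁻¹ * (t ^ q)⁻¹ with hδ₁
  have hδ₁' := theta_rel O s t q hs hs' ht ht'
  rw [← hδ₁] at hδ₁'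
  have hrel : α s * α t = α δ₁ * α t ^ q * α s := by
    rw [← map_pow, ← map_mul, ← map_mul, ← map_mul, hδ₁]
    congr 1
    group
  have hδ : ∀ b : E₂, ∀ n : ℕ, ((α δ₁) ^ (l ^ n)) b = b → (α δ₁) b = b := by
    intro b n hb
    let V : Subgroup (E₁ ≃ₐ[F₁] E₁) := (MulAction.stabilizer (E₂ ≃ₐ[F₂] E₂) b).comap α
    have hV : IsOpen (V : Set (E₁ ≃ₐ[F₁] E₁)) := by
      have h1 : IsOpen ((MulAction.stabilizer (E₂ ≃ₐ[F₂] E₂) b : Subgroup (E₂ ≃ₐ[F₂] E₂)) :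
        Set (E₂ ≃ₐ[F₂] E₂)) := stabilizer_isOpen_of_isIntegral (K := F₂) (L := E₂) b
      exact h1.preimage hα
    have h2 := wild_mem O δ₁ hδ₁' (l ^ n) (hlO n) V hV (by
      change α (δ₁ ^ (l ^ n)) b = b
      rw [map_pow]; exact hb)
    exact h2
  have hpowpos : ∀ n : ℕ, 0 < l ^ n := fun n => pow_pos hl0 n
  have hq1 : 1 < q := one_lt_absNorm v
  have hq2 : l ^ 2 ∣ q - 1 := by
    obtain ⟨ξ, hξK, hξ⟩ := hμ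
    have h1 := acts_on_root O s q hs' (l ^ 2) (hlO 2) ξ hξ.pow_eq_one
    rw [hsK ξ hξK] at h1
    have hξ0 : ξ ≠ 0 := hξ.ne_zero (hpowpos 2).ne'
    rw [← hξ.pow_eq_one_iff_dvd]
    have h2 : ξ ^ (q - 1) * ξ = 1 * ξ := by
      rw [← pow_succ, show q - 1 + 1 = q by omega, one_mul, ← h1]
    exact mul_right_cancel₀ hξ0 h2
  have hsK2 : ∀ x ∈ K₂, (α s) x = x := hαK s hsK
  have htK2 : ∀ x ∈ K₂, (α t) x = x := hαK t htK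
  -- transfer of fixedness
  have htr : ∀ x : K₂, x ≠ 0 → ∀ (X : E₂) (b : E₁), X ^ l = x → b ^ l = κ x →
      ((α t) X = X ↔ t b = b) := by
    intro x hx X b hX hb
    have hxE : (x : E₂) ≠ 0 := by simpa using hx
    obtain ⟨e, he⟩ := exists_exp_of_fix hl0 hζ₂ hX hxE (α t) (htK2 x x.2)
    have h1 := hκ.spec x hx X b hX hb t htK e he
    have hX0 : X ≠ 0 := by rintro rfl; rw [zero_pow hl0.ne'] at hX; exact hxE hX.symm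
    have hκE : (κ x : E₁) ≠ 0 := by simpa using hκ.ne_zero x hx
    have hb0 : b ≠ 0 := by rintro rfl; rw [zero_pow hl0.ne'] at hb; exact hκE hb.symm
    rw [he, h1, mul_eq_right₀ hX0, mul_eq_right₀ hb0, hζ₂.pow_eq_one_iff_dvd,
      hζ₁.pow_eq_one_iff_dvd]
  obtain ⟨X₀, hX₀⟩ := hpow₂ (x₀ : E₂)
  have hne : ∃ b : E₂, b ^ l ∈ K₂ ∧ (α t) b ≠ b :=
    ⟨X₀, by rw [hX₀]; exact x₀.2, by rw [Ne, htr x₀ hx₀ X₀ b₀ hX₀ hb₀]; exact htb⟩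
  obtain ⟨hact₁, hact₂⟩ := auto_cyc K₂ hl hl2 hpow₂ hroot₂ (α s) (α t)
    (α δ₁) q hsK2 htK2 hrel hq1 hδ hμ₂ hne
  obtain ⟨w, hwl, hw1, hw2, hw3⟩ := local_lemma K₂ hl hl2 hpow₂ hζ₂ (α s) (α t) (α δ₁) q hsK2 htK2
    hrel hq1 hq2 hδ hact₁ hact₂ hne
  -- (b)
  have hdvd : ∀ x, x ≠ 0 → (DvdVal w l x ↔ DvdVal v l (κ x)) := by
    intro x hx
    obtain ⟨X, hX⟩ := hpow₂ (x : E₂)
    obtain ⟨b, hb⟩ := hpow₁ (κ x : E₁)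
    have h1 : DvdVal w l x ↔ (α t) X = X := ⟨hw1 X x hX, hw2 X x hx hX⟩
    rw [h1, htr x hx X b hX hb]
    constructor
    · intro htb'
      have hK0 : ∀ y : K₁, y ≠ 0 → (y : E₁) ≠ 0 := fun y hy => by simpa using hy
      have htz : t.toRingEquiv (z₁ : E₁) = z₁ := htK z₁ z₁.2
      refine dvdVal_of_char v hl (fun y => kum hpow₁ (z₁ : E₁) t.toRingEquiv (y : E₁)) ?_ ?_
        (hκ.ne_zero x₀ hx₀) ?_ (hκ.ne_zero x hx) ?_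
      · intro y y' hy hy'
        exact kum_mul hpow₁ hl0 hζ₁ htz (hK0 y hy) (hK0 y' hy') (htK y y.2) (htK y' y'.2)
      · intro y hy
        have hy0 := ((dvdVal_iff v hl0.ne' y).mp hy).1
        obtain ⟨c, hc⟩ := hpow₁ (y : E₁)
        exact (kum_eq_zero_iff hpow₁ hl0 hζ₁ htz (hK0 y hy0) (htK y y.2) hc).mpr
          (tame_fix K₁ hl0.ne' O hO v hOv hvl t htK ht' y c hc hy)
      · rw [Ne, kum_eq_zero_iff hpow₁ hl0 hζ₁ htz (hK0 _ (hκ.ne_zero x₀ hx₀))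
          (htK _ (κ x₀).2) hb₀]
        exact htb
      · exact (kum_eq_zero_iff hpow₁ hl0 hζ₁ htz (hK0 _ (hκ.ne_zero x hx))
          (htK _ (κ x).2) hb).mpr htb'
    · exact tame_fix K₁ hl0.ne' O hO v hOv hvl t htK ht' (κ x) b hb
  refine ⟨w, hwl, hdvd, ?_⟩
  · intro x hx hxq
    have hx0 : x ≠ 0 := by
      rintro rfl; rw [map_zero] at hx; exact zero_ne_one hx
    have hxE : (x : E₂) ≠ 0 := by simpa using hx0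
    obtain ⟨X, hX⟩ := hpow₂ (x : E₂)
    obtain ⟨b, hb⟩ := hpow₁ (κ x : E₁)
    obtain ⟨e, he⟩ := exists_exp_of_fix hl0 hζ₂ hX hxE (α s) (hsK2 x x.2)
    have hse := hκ.spec x hx0 X b hX hb s hsK e he
    obtain ⟨z, hz⟩ := (hdvd x hx0).mp (dvdVal_of_valuation_eq_one hx)
    refine ⟨z, hz, e, ?_, hw3 X x hX hx hxq e he (z₂ ^ e) (by push_cast; rfl)⟩
    have h1 := val_one_of_center O hO v hOv hz
    have h2 : (b * z) ^ l = algebraMap K₁ E₁ (κ x * z ^ l) := by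
      rw [map_mul, map_pow, mul_pow, hb]; rfl
    have h3 : O.valuation (b * z) = 1 := by
      rw [← h2, map_pow] at h1
      exact (pow_eq_one_iff_of_nonneg zero_le hl0.ne').mp h1
    have hbz0 : b * z ≠ 0 := by
      intro h0; rw [h0, map_zero] at h3; exact zero_ne_one h3
    have h4 := (near_of_actsPow hs' h3).symm.2.2
    have h5 : s (b * z) = (z₁ : E₁) ^ e * (b * z) := by
      rw [map_mul, hse, hsK z z.2]; ring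
    have hz10 : (z₁ : E₁) ^ e ≠ 0 := pow_ne_zero _ (hζ₁.ne_zero hl0.ne')
    -- `(b z)^(q-1) ≡ z₁^e`
    have h6 : (b * z) ^ (q - 1) - (z₁ : E₁) ^ e ∈ O.nonunits := by
      have h7 : (b * z) ^ (q - 1) - (z₁ : E₁) ^ e =
          (z₁ : E₁) ^ e * ((b * z) ^ q / s (b * z) - 1) := by
        rw [h5]
        have : (b * z) ^ q = (b * z) ^ (q - 1) * (b * z) := by
          rw [← pow_succ, show q - 1 + 1 = q by omega]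
        rw [this, mul_div_mul_right _ _ hbz0, mul_sub, mul_one, mul_div_cancel₀ _ hz10]
      rw [h7]
      refine Near.mul_mem_nonunits ?_ h4
      have : O.valuation ((z₁ : E₁) ^ e) = 1 := by
        rw [map_pow, val_root_eq_one O hl0.ne' hζ₁.pow_eq_one, one_pow]
      exact this.le
    rw [← (mem_iff_of_center O hO v hOv _).2, map_sub, map_pow, ← h2, map_pow, ← pow_mul,
      Nat.mul_div_cancel' (dvd_trans (dvd_pow_self l two_ne_zero) hq2)]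
    exact h6

theorem transfer_rev (α : (E₁ ≃ₐ[F₁] E₁) →* (E₂ ≃ₐ[F₂] E₂)) (hα : Continuous α)
    (K₁ : IntermediateField F₁ E₁) [NumberField K₁] (K₂ : IntermediateField F₂ E₂) [NumberField K₂]
    (hαK : ∀ g : E₁ ≃ₐ[F₁] E₁, (∀ x ∈ K₁, g x = x) → ∀ y ∈ K₂, α g y = y)
    {l : ℕ} (hl : l.Prime) (hl2 : l ≠ 2)
    (hpow₁ : ∀ x : E₁, ∃ y : E₁, y ^ l = x) (hpow₂ : ∀ x : E₂, ∃ y : E₂, y ^ l = x)
    (hroot₂ : ∀ n : ℕ, ∃ ξ : E₂, IsPrimitiveRoot ξ (l ^ n))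
    (z₁ : K₁) (hz₁ : IsPrimitiveRoot z₁ l) (z₂ : K₂) (hz₂ : IsPrimitiveRoot z₂ l)
    (hμ : ∃ ξ ∈ K₁, IsPrimitiveRoot ξ (l ^ 2))
    (hμ₂ : ∃ ξ ∈ K₂, IsPrimitiveRoot ξ (l ^ 2))
    (Q : Set ℕ)
    (hker : ∀ p : ℕ, p.Prime → p ∈ Q → l ∣ p - 1 → ∀ g : E₁ ≃ₐ[F₁] E₁, (∀ y ∈ K₁, g y = y) →
      TrivialOn l p (α g) → TrivialOn l p g) :
    ∃ (κ : K₂ → K₁) (S : Finset (HeightOneSpectrum (𝓞 K₁))),
      IsTransfer α K₁ K₂ l (z₁ : E₁) (z₂ : E₂) κ ∧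
      ∀ v ∉ S, (Ideal.absNorm v.asIdeal).Prime → Ideal.absNorm v.asIdeal ∈ Q →
        ∃ w : HeightOneSpectrum (𝓞 K₂),
          (∃ p : ℕ, p.Prime ∧ (p : 𝓞 K₁) ∈ v.asIdeal ∧ (p : 𝓞 K₂) ∈ w.asIdeal) ∧
          (Ideal.absNorm w.asIdeal = Ideal.absNorm v.asIdeal →
            ∀ x : K₂, w.valuation K₂ x = 1 → ∃ z : K₁, v.valuation K₁ (κ x * z ^ l) = 1 ∧
              ∃ e : ℕ,
              v.valuation K₁ ((κ x * z ^ l) ^ ((Ideal.absNorm v.asIdeal - 1) / l) - z₁ ^ e) < 1 ∧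
              w.valuation K₂ (x ^ ((Ideal.absNorm v.asIdeal - 1) / l) - z₂ ^ e) < 1) := by
  classical
  have hl0 := hl.pos
  have hζ₁ : IsPrimitiveRoot (z₁ : E₁) l :=
    hz₁.map_of_injective (f := algebraMap K₁ E₁) (algebraMap K₁ E₁).injective
  have hζ₂ : IsPrimitiveRoot (z₂ : E₂) l :=
    hz₂.map_of_injective (f := algebraMap K₂ E₂) (algebraMap K₂ E₂).injective
  have : FiniteDimensional F₁ K₁ := by
    have : CharZero F₁ := (algebraMap F₁ E₁).charZero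
    exact Module.Finite.of_restrictScalars_finite ℚ F₁ K₁
  obtain ⟨κ, hκ⟩ := exists_transfer α hα K₁ K₂ hαK hl hζ₁ z₁.2 hζ₂ z₂.2 hpow₂
  have hmatch := local_matchL α hα K₁ K₂ hαK hl hl2 hpow₁ hpow₂ hroot₂ z₁ hz₁ z₂ hz₂ hμ
    hμ₂ κ hκ
  refine ⟨κ, ((finite_above K₁ hl0.ne').union (finite_ramified K₁)).toFinset, hκ, ?_⟩
  intro v hvS hvp hpB
  rw [Set.Finite.mem_toFinset, Set.mem_union, not_or] at hvS
  obtain ⟨hv1, hv2⟩ := hvS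
  have hvl : (l : 𝓞 K₁) ∉ v.asIdeal := hv1
  set p := Ideal.absNorm v.asIdeal with hp
  have hpv : (p : 𝓞 K₁) ∈ v.asIdeal := Ideal.absNorm_mem _
  have hvexp : v.valuation K₁ (p : K₁) = WithZero.exp (-1 : ℤ) := by
    by_contra hne
    exact hv2 ⟨p, hvp, hpv, hne⟩
  have hlp : l ∣ p - 1 := by
    obtain ⟨O, hO, hOv⟩ := exists_valuationSubring_over (E := E₁) v
    have h1 : v.valuation K₁ (z₁ ^ (p - 1) - 1) < 1 := by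
      refine unit_pow_sub_one' v ?_
      have h2 : v.valuation K₁ z₁ ^ l = 1 := by rw [← map_pow, hz₁.pow_eq_one, map_one]
      exact (pow_eq_one_iff_of_nonneg zero_le hl0.ne').mp h2
    have h2 := (mem_iff_of_center O hO v hOv _).2.mpr h1
    rw [map_sub, map_pow, map_one] at h2
    have h3 := root_eq_one O l (natCast_notMem O v hOv hvl) ((z₁ : E₁) ^ (p - 1))
      (by rw [← pow_mul, mul_comm, pow_mul, hζ₁.pow_eq_one, one_pow]) h2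
    rwa [hζ₁.pow_eq_one_iff_dvd] at h3
  obtain ⟨β₁, y₁, hβ₁0, hβ₁, hβ₁g, hβ₁v, -⟩ := exists_gauss hl hvp hlp hζ₁ hpow₁ K₁ z₁.2
  obtain ⟨β₂, x₂, hβ₂0, hβ₂, hβ₂g, -, hβ₂w⟩ := exists_gauss hl hvp hlp hζ₂ hpow₂ K₂ z₂.2
  have hy₁0 : y₁ ≠ 0 := by
    rintro rfl; exact pow_ne_zero l hβ₁0 (by rw [hβ₁]; rfl)
  have hx₂0 : x₂ ≠ 0 := by
    rintro rfl; exact pow_ne_zero l hβ₂0 (by rw [hβ₂]; rfl)
  have hx₂E : (x₂ : E₂) ≠ 0 := by simpa using hx₂0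
  have hkey : ¬ DvdVal v l (κ x₂) := by
    intro hd
    obtain ⟨O, s, t, hO, hOv, -, htK, -, -, -, ht', htb⟩ :=
      exists_tame K₁ hl hζ₁ z₁.2 v hvl y₁ hy₁0 (hβ₁v v hvexp) β₁ hβ₁
    obtain ⟨b₁, hb₁⟩ := hpow₁ (κ x₂ : E₁)
    have htb₁ := tame_fix K₁ hl0.ne' O hO v hOv hvl t htK ht' (κ x₂) b₁ hb₁ hd
    have hκE : (κ x₂ : E₁) ≠ 0 := by simpa using hκ.ne_zero x₂ hx₂0
    have hb₁0 : b₁ ≠ 0 := by rintro rfl; rw [zero_pow hl0.ne'] at hb₁; exact hκE hb₁.symm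
    obtain ⟨e, he⟩ := exists_exp_of_fix hl0 hζ₂ hβ₂ hx₂E (α t) (hαK t htK x₂ x₂.2)
    have h1 := hκ.spec x₂ hx₂0 β₂ b₁ hβ₂ hb₁ t htK e he
    rw [htb₁] at h1
    have h2 : (z₁ : E₁) ^ e = 1 := by
      apply mul_right_cancel₀ hb₁0
      rw [← h1, one_mul]
    have h3 : (α t) β₂ = β₂ := by
      rw [he, (hζ₂.pow_eq_one_iff_dvd e).mpr ((hζ₁.pow_eq_one_iff_dvd e).mp h2), one_mul]
    have h4 := (hβ₂g (α t) (hαK t htK)).mp h3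
    apply htb
    rw [hβ₁g t htK]
    exact hker p hvp hpB hlp t htK h4
  obtain ⟨w, hwl, hw1, hw2⟩ := hmatch v hvl x₂ hx₂0 hkey
  have hpw : (p : 𝓞 K₂) ∈ w.asIdeal := by
    by_contra hpw
    exact hkey ((hw1 x₂ hx₂0).mp (hβ₂w w hpw))
  refine ⟨w, ⟨p, hvp, hpv, hpw⟩, ?_⟩
  intro hNw x hx
  have hxp : w.valuation K₂ (x ^ (p - 1) - 1) < 1 := by
    rw [← hNw]
    exact unit_pow_sub_one' w hx
  exact hw2 x hx hxp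

theorem transfer_fwd (α : (E₁ ≃ₐ[F₁] E₁) →* (E₂ ≃ₐ[F₂] E₂)) (hα : Continuous α)
    (hαo : ∀ V : Subgroup (E₁ ≃ₐ[F₁] E₁), IsOpen (V : Set (E₁ ≃ₐ[F₁] E₁)) →
      IsOpen ((V.map α : Subgroup (E₂ ≃ₐ[F₂] E₂)) : Set (E₂ ≃ₐ[F₂] E₂)))
    (K₁ : IntermediateField F₁ E₁) [NumberField K₁] (K₂ : IntermediateField F₂ E₂) [NumberField K₂]
    (hαK : ∀ g : E₁ ≃ₐ[F₁] E₁, (∀ x ∈ K₁, g x = x) → ∀ y ∈ K₂, α g y = y)
    {l : ℕ} (hl : l.Prime) (hl2 : l ≠ 2)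
    (hpow₁ : ∀ x : E₁, ∃ y : E₁, y ^ l = x) (hpow₂ : ∀ x : E₂, ∃ y : E₂, y ^ l = x)
    (hroot₂ : ∀ n : ℕ, ∃ ξ : E₂, IsPrimitiveRoot ξ (l ^ n))
    (z₁ : K₁) (hz₁ : IsPrimitiveRoot z₁ l) (z₂ : K₂) (hz₂ : IsPrimitiveRoot z₂ l)
    (hμ : ∃ ξ ∈ K₁, IsPrimitiveRoot ξ (l ^ 2))
    (hμ₂ : ∃ ξ ∈ K₂, IsPrimitiveRoot ξ (l ^ 2))
    (Q : Set ℕ)
    (hker : ∀ p : ℕ, p.Prime → p ∈ Q → l ∣ p - 1 → ∀ g : E₁ ≃ₐ[F₁] E₁, (∀ y ∈ K₁, g y = y) →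
      TrivialOn l p g → TrivialOn l p (α g)) :
    ∃ (κ : K₂ → K₁) (S : Finset (HeightOneSpectrum (𝓞 K₂))),
      IsTransfer α K₁ K₂ l (z₁ : E₁) (z₂ : E₂) κ ∧
      ∀ w ∉ S, (Ideal.absNorm w.asIdeal).Prime → Ideal.absNorm w.asIdeal ∈ Q →
        ∃ v : HeightOneSpectrum (𝓞 K₁),
          (∃ p : ℕ, p.Prime ∧ (p : 𝓞 K₁) ∈ v.asIdeal ∧ (p : 𝓞 K₂) ∈ w.asIdeal) ∧
          (Ideal.absNorm v.asIdeal = Ideal.absNorm w.asIdeal →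
            ∀ x : K₂, w.valuation K₂ x = 1 → ∃ z : K₁, v.valuation K₁ (κ x * z ^ l) = 1 ∧
              ∃ e : ℕ,
              v.valuation K₁ ((κ x * z ^ l) ^ ((Ideal.absNorm w.asIdeal - 1) / l) - z₁ ^ e) < 1 ∧
              w.valuation K₂ (x ^ ((Ideal.absNorm w.asIdeal - 1) / l) - z₂ ^ e) < 1) := by
  classical
  have hl0 := hl.pos
  have hζ₁ : IsPrimitiveRoot (z₁ : E₁) l :=
    hz₁.map_of_injective (f := algebraMap K₁ E₁) (algebraMap K₁ E₁).injective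
  have hζ₂ : IsPrimitiveRoot (z₂ : E₂) l :=
    hz₂.map_of_injective (f := algebraMap K₂ E₂) (algebraMap K₂ E₂).injective
  have : FiniteDimensional F₁ K₁ := by
    have : CharZero F₁ := (algebraMap F₁ E₁).charZero
    exact Module.Finite.of_restrictScalars_finite ℚ F₁ K₁
  obtain ⟨κ, hκ⟩ := exists_transfer α hα K₁ K₂ hαK hl hζ₁ z₁.2 hζ₂ z₂.2 hpow₂
  have hmatch := local_matchL α hα K₁ K₂ hαK hl hl2 hpow₁ hpow₂ hroot₂ z₁ hz₁ z₂ hz₂ hμ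
    hμ₂ κ hκ
  have hfin := hit hl κ hκ.ne_zero (hκ.mul hl0 hαK hζ₁ hζ₂ hpow₁ hpow₂)
    (hκ.ker hl hαo hαK hζ₁ hζ₂ z₂.2 hpow₂) (by
      rintro v hvl ⟨x₀, hx₀, hx₀v⟩
      obtain ⟨w, -, hw, -⟩ := hmatch v hvl x₀ hx₀ hx₀v
      refine ⟨w, fun x hx => (hw x ?_).mp hx⟩
      exact ((dvdVal_iff w hl0.ne' x).mp hx).1)
  refine ⟨κ, (hfin.union (finite_ramified K₂)).toFinset, hκ, ?_⟩
  intro w hwS hwp hpB
  rw [Set.Finite.mem_toFinset, Set.mem_union, not_or] at hwS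
  obtain ⟨hw1, hw2⟩ := hwS
  replace hw1 := not_not.mp hw1
  obtain ⟨v, hvl, ⟨x₀, hx₀, hx₀v⟩, hv⟩ := hw1
  obtain ⟨w', hwl', hw'1, hw'3⟩ := hmatch v hvl x₀ hx₀ hx₀v
  have hww : w = w' := eq_of_dvdVal_imp hl w w' fun x hx hxw => (hw'1 x hx).mpr (hv x hxw)
  subst hww
  set p := Ideal.absNorm w.asIdeal with hp
  have hpw : (p : 𝓞 K₂) ∈ w.asIdeal := Ideal.absNorm_mem _
  have hwexp : w.valuation K₂ (p : K₂) = WithZero.exp (-1 : ℤ) := by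
    by_contra hne
    exact hw2 ⟨p, hwp, hpw, hne⟩
  have hlp : l ∣ p - 1 := by
    obtain ⟨O, hO, hOw⟩ := exists_valuationSubring_over (E := E₂) w
    have h1 : w.valuation K₂ (z₂ ^ (p - 1) - 1) < 1 := by
      refine unit_pow_sub_one' w ?_
      have h2 : w.valuation K₂ z₂ ^ l = 1 := by rw [← map_pow, hz₂.pow_eq_one, map_one]
      exact (pow_eq_one_iff_of_nonneg zero_le hl0.ne').mp h2
    have h2 := (mem_iff_of_center O hO w hOw _).2.mpr h1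
    rw [map_sub, map_pow, map_one] at h2
    have h3 := root_eq_one O l (natCast_notMem O w hOw hwl') ((z₂ : E₂) ^ (p - 1))
      (by rw [← pow_mul, mul_comm, pow_mul, hζ₂.pow_eq_one, one_pow]) h2
    rwa [hζ₂.pow_eq_one_iff_dvd] at h3
  have hpv : (p : 𝓞 K₁) ∈ v.asIdeal := by
    by_contra hpv
    obtain ⟨β₁, y₁, hβ₁0, hβ₁, hβ₁g, -, hβ₁v⟩ := exists_gauss hl hwp hlp hζ₁ hpow₁ K₁ z₁.2
    obtain ⟨β₂, x₂, hβ₂0, hβ₂, hβ₂g, hβ₂w, -⟩ := exists_gauss hl hwp hlp hζ₂ hpow₂ K₂ z₂.2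
    have hx₂0 : x₂ ≠ 0 := by
      rintro rfl; exact pow_ne_zero l hβ₂0 (by rw [hβ₂]; rfl)
    have hx₂E : (x₂ : E₂) ≠ 0 := by simpa using hx₂0
    have hnd : ¬ DvdVal v l (κ x₂) := by
      rw [← hw'1 x₂ hx₂0]; exact hβ₂w w hwexp
    obtain ⟨b₁, hb₁⟩ := hpow₁ (κ x₂ : E₁)
    obtain ⟨O, s, t, hO, hOv, -, htK, -, -, -, ht', htb⟩ :=
      exists_tame K₁ hl hζ₁ z₁.2 v hvl (κ x₂) (hκ.ne_zero x₂ hx₂0) hnd b₁ hb₁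
    have htβ : t β₁ = β₁ := tame_fix K₁ hl0.ne' O hO v hOv hvl t htK ht' y₁ β₁ hβ₁ (hβ₁v v hpv)
    have h4 := hker p hwp hpB hlp t htK ((hβ₁g t htK).mp htβ)
    have h3 := (hβ₂g (α t) (hαK t htK)).mpr h4
    apply htb
    have h5 := hκ.spec x₂ hx₂0 β₂ b₁ hβ₂ hb₁ t htK 0 (by rw [h3]; ring)
    rw [h5]; ring
  refine ⟨v, ⟨p, hwp, hpv, hpw⟩, ?_⟩
  intro hNv x hx
  have hxp : w.valuation K₂ (x ^ (Ideal.absNorm v.asIdeal - 1) - 1) < 1 := by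
    rw [hNv]
    exact unit_pow_sub_one' w hx
  have h := hw'3 x hx hxp
  rw [hNv] at h
  exact h

end Asm

section Level

variable {F₁ E₁ F₂ E₂ : Type*} [Field F₁] [NumberField F₁] [Field E₁]
    [Algebra F₁ E₁] [IsGalois F₁ E₁] [Field F₂] [NumberField F₂] [Field E₂] [Algebra F₂ E₂]
    [IsGalois F₂ E₂]

omit [NumberField F₁] [NumberField F₂] in
theorem exists_levelL (α : (E₁ ≃ₐ[F₁] E₁) →* (E₂ ≃ₐ[F₂] E₂)) (hα : Continuous α) {l : ℕ}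
    (hl : l.Prime) (hroot₁ : ∀ n : ℕ, ∃ z : E₁, IsPrimitiveRoot z (l ^ n))
    (hroot₂ : ∀ n : ℕ, ∃ z : E₂, IsPrimitiveRoot z (l ^ n))
    (U : Subgroup (E₁ ≃ₐ[F₁] E₁)) (hU : IsOpen (U : Set (E₁ ≃ₐ[F₁] E₁)))
    (L₂ : IntermediateField F₂ E₂) (hL₂ : FiniteDimensional F₂ L₂) :
    ∃ (K₁ : IntermediateField F₁ E₁) (K₂ : IntermediateField F₂ E₂), FiniteDimensional F₁ K₁ ∧
      FiniteDimensional F₂ K₂ ∧ L₂ ≤ K₂ ∧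
      (∀ g : E₁ ≃ₐ[F₁] E₁, (∀ z ∈ K₁, g z = z) → g ∈ U) ∧
      (∀ g : E₁ ≃ₐ[F₁] E₁, (∀ z ∈ K₁, g z = z) → ∀ x ∈ K₂, (α g) x = x) ∧
      (∀ z : E₁, z ^ (l ^ 2) = 1 → z ∈ K₁) ∧ (∀ z : E₂, z ^ (l ^ 2) = 1 → z ∈ K₂) := by
  obtain ⟨ζ₁, hζ₁⟩ := hroot₁ 2
  obtain ⟨ζ₂, hζ₂⟩ := hroot₂ 2
  have hfin₁ : FiniteDimensional F₁ F₁⟮ζ₁⟯ :=
    adjoin.finiteDimensional (Algebra.IsIntegral.isIntegral ζ₁)
  have hfin₂ : FiniteDimensional F₂ F₂⟮ζ₂⟯ :=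
    adjoin.finiteDimensional (Algebra.IsIntegral.isIntegral ζ₂)
  set K₂ : IntermediateField F₂ E₂ := L₂ ⊔ F₂⟮ζ₂⟯ with hK₂def
  have hK₂fin : FiniteDimensional F₂ K₂ := finiteDimensional_sup L₂ F₂⟮ζ₂⟯
  have hVopen : IsOpen (K₂.fixingSubgroup : Set (E₂ ≃ₐ[F₂] E₂)) := K₂.fixingSubgroup_isOpen
  have hWopen : IsOpen ((U : Set (E₁ ≃ₐ[F₁] E₁)) ∩ α ⁻¹' (K₂.fixingSubgroup : Set _)) :=
    hU.inter (hVopen.preimage hα)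
  have hWmem : (U : Set (E₁ ≃ₐ[F₁] E₁)) ∩ α ⁻¹' (K₂.fixingSubgroup : Set _) ∈ nhds 1 :=
    hWopen.mem_nhds ⟨U.one_mem, by
      simp only [Set.mem_preimage, map_one]
      exact K₂.fixingSubgroup.one_mem⟩
  rw [krullTopology_mem_nhds_one_iff] at hWmem
  obtain ⟨M, hMfin, hM⟩ := hWmem
  set K₁ : IntermediateField F₁ E₁ := M ⊔ F₁⟮ζ₁⟯ with hK₁def
  have hK₁fin : FiniteDimensional F₁ K₁ := finiteDimensional_sup M F₁⟮ζ₁⟯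
  have hmem : ∀ g : E₁ ≃ₐ[F₁] E₁, (∀ z ∈ K₁, g z = z) → g ∈ U ∧ ∀ x ∈ K₂, (α g) x = x := by
    intro g hg
    have h1 : g ∈ M.fixingSubgroup := by
      rw [IntermediateField.mem_fixingSubgroup_iff]
      intro x hx
      exact hg x (le_sup_left (a := M) (b := F₁⟮ζ₁⟯) hx)
    obtain ⟨h2, h3⟩ := hM h1
    refine ⟨h2, ?_⟩
    have h4 : α g ∈ K₂.fixingSubgroup := h3
    rw [IntermediateField.mem_fixingSubgroup_iff] at h4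
    exact h4
  have hroots₁ : ∀ z : E₁, z ^ (l ^ 2) = 1 → z ∈ K₁ := by
    intro z hz
    have : NeZero (l ^ 2) := ⟨(pow_pos hl.pos 2).ne'⟩
    obtain ⟨i, _, rfl⟩ := hζ₁.eq_pow_of_pow_eq_one hz
    exact pow_mem (le_sup_right (a := M) (b := F₁⟮ζ₁⟯) (mem_adjoin_simple_self F₁ ζ₁)) i
  have hroots₂ : ∀ z : E₂, z ^ (l ^ 2) = 1 → z ∈ K₂ := by
    intro z hz
    have : NeZero (l ^ 2) := ⟨(pow_pos hl.pos 2).ne'⟩
    obtain ⟨i, _, rfl⟩ := hζ₂.eq_pow_of_pow_eq_one hz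
    exact pow_mem (le_sup_right (a := L₂) (b := F₂⟮ζ₂⟯) (mem_adjoin_simple_self F₂ ζ₂)) i
  exact ⟨K₁, K₂, hK₁fin, hK₂fin, le_sup_left, fun g hg => (hmem g hg).1, fun g hg => (hmem g hg).2,
    hroots₁, hroots₂⟩

theorem core_rev (α : (E₁ ≃ₐ[F₁] E₁) →* (E₂ ≃ₐ[F₂] E₂)) (hα : Continuous α)
    {l : ℕ} (hl : l.Prime) (hl2 : l ≠ 2)
    (hpow₁ : ∀ x : E₁, ∃ y : E₁, y ^ l = x) (hpow₂ : ∀ x : E₂, ∃ y : E₂, y ^ l = x)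
    (hroot₁ : ∀ n : ℕ, ∃ z : E₁, IsPrimitiveRoot z (l ^ n))
    (hroot₂ : ∀ n : ℕ, ∃ z : E₂, IsPrimitiveRoot z (l ^ n))
    (U : Subgroup (E₁ ≃ₐ[F₁] E₁)) (hU : IsOpen (U : Set (E₁ ≃ₐ[F₁] E₁)))
    (Q : Set ℕ) (hQ : MeetsSplit Q)
    (hker : ∀ p : ℕ, p.Prime → p ∈ Q → l ∣ p - 1 → ∀ g ∈ U, TrivialOn l p (α g) →
      TrivialOn l p g)
    (L₂ : IntermediateField F₂ E₂) (hL₂ : FiniteDimensional F₂ L₂) :
    ∃ (K₁ : IntermediateField F₁ E₁) (j : L₂ →+* E₁), FiniteDimensional F₁ K₁ ∧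
        ∀ x : L₂, KMatch α l K₁ (x : E₂) (j x) := by
  have : CharZero E₁ := charZero_of_injective_algebraMap (algebraMap F₁ E₁).injective
  have : CharZero E₂ := charZero_of_injective_algebraMap (algebraMap F₂ E₂).injective
  have : Algebra.IsAlgebraic ℚ E₁ := Algebra.IsAlgebraic.trans ℚ F₁ E₁
  have : Algebra.IsAlgebraic ℚ E₂ := Algebra.IsAlgebraic.trans ℚ F₂ E₂
  obtain ⟨K₁, K₂, hK₁, hK₂, hLK, hKU, hαK, hμ₁, hμ₂⟩ :=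
    exists_levelL α hα hl hroot₁ hroot₂ U hU L₂ hL₂
  have : NumberField K₁ := NumberField.of_module_finite F₁ K₁
  have : NumberField K₂ := NumberField.of_module_finite F₂ K₂
  obtain ⟨ζ₁, hζ₁⟩ : ∃ z : E₁, IsPrimitiveRoot z l := by simpa using hroot₁ 1
  obtain ⟨ζ₂, hζ₂⟩ : ∃ z : E₂, IsPrimitiveRoot z l := by simpa using hroot₂ 1
  have hl₁ : ∀ z : E₁, z ^ l = 1 → z ∈ K₁ := fun z hz =>
    hμ₁ z (by rw [pow_two, pow_mul, hz, one_pow])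
  have hl₂ : ∀ z : E₂, z ^ l = 1 → z ∈ K₂ := fun z hz =>
    hμ₂ z (by rw [pow_two, pow_mul, hz, one_pow])
  have hζ₁K : ζ₁ ∈ K₁ := hl₁ ζ₁ hζ₁.pow_eq_one
  have hζ₂K : ζ₂ ∈ K₂ := hl₂ ζ₂ hζ₂.pow_eq_one
  have hz₁ : IsPrimitiveRoot (⟨ζ₁, hζ₁K⟩ : K₁) l :=
    IsPrimitiveRoot.of_map_of_injective (f := algebraMap K₁ E₁) hζ₁ (algebraMap K₁ E₁).injective
  have hz₂ : IsPrimitiveRoot (⟨ζ₂, hζ₂K⟩ : K₂) l :=
    IsPrimitiveRoot.of_map_of_injective (f := algebraMap K₂ E₂) hζ₂ (algebraMap K₂ E₂).injective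
  obtain ⟨ξ, hξ⟩ := hroot₁ 2
  obtain ⟨ξ', hξ'⟩ := hroot₂ 2
  obtain ⟨κ, S, hκ, hsym⟩ := transfer_rev α hα K₁ K₂ hαK hl hl2 hpow₁ hpow₂
    hroot₂ ⟨ζ₁, hζ₁K⟩ hz₁ ⟨ζ₂, hζ₂K⟩ hz₂ ⟨ξ, hμ₁ ξ hξ.pow_eq_one, hξ⟩
    ⟨ξ', hμ₂ ξ' hξ'.pow_eq_one, hξ'⟩ Q
    (fun p hp hpQ hlp g hg => hker p hp hpQ hlp g (hKU g hg))
  obtain ⟨j, c, T, hc, hT⟩ := global_step_rev_dens hl hz₁ hz₂ κ hκ.ne_zero Q hQ S hsym
  obtain ⟨N₁, hN₁, hmatch⟩ := match_of_kappa α hl hpow₁ K₁ K₂ hζ₁ hζ₁K hζ₂ hαK κ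
    (fun x hx X hX b hb g hg e he => hκ.spec x hx X b hX hb g hg e he) j c hc T hT
  refine ⟨N₁, (algebraMap K₁ E₁).comp (j.comp (IntermediateField.inclusion hLK).toRingHom), hN₁, ?_⟩
  intro x
  exact hmatch (IntermediateField.inclusion hLK x)

theorem core_fwd (α : (E₁ ≃ₐ[F₁] E₁) →* (E₂ ≃ₐ[F₂] E₂)) (hα : Continuous α)
    (hopen : IsOpen (Set.range α))
    {l : ℕ} (hl : l.Prime) (hl2 : l ≠ 2)
    (hpow₁ : ∀ x : E₁, ∃ y : E₁, y ^ l = x) (hpow₂ : ∀ x : E₂, ∃ y : E₂, y ^ l = x)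
    (hroot₁ : ∀ n : ℕ, ∃ z : E₁, IsPrimitiveRoot z (l ^ n))
    (hroot₂ : ∀ n : ℕ, ∃ z : E₂, IsPrimitiveRoot z (l ^ n))
    (U : Subgroup (E₁ ≃ₐ[F₁] E₁)) (hU : IsOpen (U : Set (E₁ ≃ₐ[F₁] E₁)))
    (Q : Set ℕ) (hQ : MeetsSplit Q)
    (hker : ∀ p : ℕ, p.Prime → p ∈ Q → l ∣ p - 1 → ∀ g ∈ U, TrivialOn l p g →
      TrivialOn l p (α g))
    (L₂ : IntermediateField F₂ E₂) (hL₂ : FiniteDimensional F₂ L₂) :
    ∃ (K₁ : IntermediateField F₁ E₁) (j : L₂ →+* E₁), FiniteDimensional F₁ K₁ ∧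
        ∀ x : L₂, KMatch α l K₁ (x : E₂) (j x) := by
  have : CharZero E₁ := charZero_of_injective_algebraMap (algebraMap F₁ E₁).injective
  have : CharZero E₂ := charZero_of_injective_algebraMap (algebraMap F₂ E₂).injective
  have : Algebra.IsAlgebraic ℚ E₁ := Algebra.IsAlgebraic.trans ℚ F₁ E₁
  have : Algebra.IsAlgebraic ℚ E₂ := Algebra.IsAlgebraic.trans ℚ F₂ E₂
  obtain ⟨K₁, K₂, hK₁, hK₂, hLK, hKU, hαK, hμ₁, hμ₂⟩ :=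
    exists_levelL α hα hl hroot₁ hroot₂ U hU L₂ hL₂
  have : NumberField K₁ := NumberField.of_module_finite F₁ K₁
  have : NumberField K₂ := NumberField.of_module_finite F₂ K₂
  obtain ⟨ζ₁, hζ₁⟩ : ∃ z : E₁, IsPrimitiveRoot z l := by simpa using hroot₁ 1
  obtain ⟨ζ₂, hζ₂⟩ : ∃ z : E₂, IsPrimitiveRoot z l := by simpa using hroot₂ 1
  have hl₁ : ∀ z : E₁, z ^ l = 1 → z ∈ K₁ := fun z hz =>
    hμ₁ z (by rw [pow_two, pow_mul, hz, one_pow])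
  have hl₂ : ∀ z : E₂, z ^ l = 1 → z ∈ K₂ := fun z hz =>
    hμ₂ z (by rw [pow_two, pow_mul, hz, one_pow])
  have hζ₁K : ζ₁ ∈ K₁ := hl₁ ζ₁ hζ₁.pow_eq_one
  have hζ₂K : ζ₂ ∈ K₂ := hl₂ ζ₂ hζ₂.pow_eq_one
  have hz₁ : IsPrimitiveRoot (⟨ζ₁, hζ₁K⟩ : K₁) l :=
    IsPrimitiveRoot.of_map_of_injective (f := algebraMap K₁ E₁) hζ₁ (algebraMap K₁ E₁).injective
  have hz₂ : IsPrimitiveRoot (⟨ζ₂, hζ₂K⟩ : K₂) l :=
    IsPrimitiveRoot.of_map_of_injective (f := algebraMap K₂ E₂) hζ₂ (algebraMap K₂ E₂).injective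
  obtain ⟨ξ, hξ⟩ := hroot₁ 2
  obtain ⟨ξ', hξ'⟩ := hroot₂ 2
  obtain ⟨κ, S, hκ, hsym⟩ := transfer_fwd α hα
    (fun V hV => isOpen_map_of_isOpen_range α hα hopen V hV) K₁ K₂ hαK hl hl2 hpow₁ hpow₂
    hroot₂ ⟨ζ₁, hζ₁K⟩ hz₁ ⟨ζ₂, hζ₂K⟩ hz₂ ⟨ξ, hμ₁ ξ hξ.pow_eq_one, hξ⟩
    ⟨ξ', hμ₂ ξ' hξ'.pow_eq_one, hξ'⟩ Q
    (fun p hp hpQ hlp g hg => hker p hp hpQ hlp g (hKU g hg))
  obtain ⟨j, c, T, hc, hT⟩ := global_step_dens hl hz₁ hz₂ κ hκ.ne_zero Q hQ S hsym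
  obtain ⟨N₁, hN₁, hmatch⟩ := match_of_kappa α hl hpow₁ K₁ K₂ hζ₁ hζ₁K hζ₂ hαK κ
    (fun x hx X hX b hb g hg e he => hκ.spec x hx X b hX hb g hg e he) j c hc T hT
  refine ⟨N₁, (algebraMap K₁ E₁).comp (j.comp (IntermediateField.inclusion hLK).toRingHom), hN₁, ?_⟩
  intro x
  exact hmatch (IntermediateField.inclusion hLK x)

end Level

end Vale.Agent.P024.H358
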